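import Vale.Agent.P369.H400.VecD
import Vale.Agent.P369.H809.Flow
import Vale.Agent.P369.H817.Deriv

set_option linter.all false

/-!
P369 (helper400): the entropy of the amplified state is monotone in every gain; the environment
family has at most the entropy of the output family.
-/

namespace Vale.Agent.P369W

open Matrix Filter Set MeasureTheory
open Vale.Agent.P369 (Conf up down)
open Vale.Agent.P369A
open Vale.Agent.P369F (IXj FXj GPath Ppj Pmj genAj genLj)
open Vale.Agent.P369V8 (hasDerivAt_CkV hasDerivAt_DkV)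
open scoped Kronecker ComplexOrder Topology

noncomputable section

variable {n M : ℕ} {ρ : Matrix (Fin n → Fin (M + 1)) (Fin n → Fin (M + 1)) ℂ}

/-- the compressions are positive semidefinite for all gains -/
theorem psd_CkV (hρ : ρ.PosSemidef) (k : Fin n → ℝ) (X : ℕ) : (cut X (CkV ρ k)).PosSemidef := by
  unfold CkV
  rw [cut_ampV_eq]
  exact pos_mar₁ ((f5_cut_ext_psd hρ X).mul_mul_conjTranspose_same _)

theorem psd_DkV (hρ : ρ.PosSemidef) (k : Fin n → ℝ) (X : ℕ) : (cut X (DkV ρ k)).PosSemidef := by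
  unfold DkV
  rw [cut_conV_eq]
  exact pos_mar₂ ((f5_cut_ext_psd hρ _).mul_mul_conjTranspose_same _)

theorem en0j_nonneg (hρ : ρ.PosSemidef) (j : Fin n) : 0 ≤ en0j ρ j := by
  refine Finset.sum_nonneg fun x _ => mul_nonneg (Nat.cast_nonneg _) ?_
  exact (Complex.le_def.1 (hρ.diag_nonneg (i := x))).1

/-- the amplifier family along a path of increasing gains is a gain path -/
theorem gpath_CkV (hρ : ρ.PosDef) (ht : ρ.trace = 1) {k k' : ℝ → Fin n → ℝ} {a b : ℝ}
    (hk : ∀ t ∈ Icc a b, ∀ j, 1 < k t j)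
    (hd : ∀ t ∈ Icc a b, ∀ j, HasDerivAt (fun u => k u j) (k' t j) t)
    (hc : ∀ j, ContinuousOn (fun t => k' t j) (Icc a b))
    (h0 : ∀ t ∈ Icc a b, ∀ j, 0 ≤ k' t j) :
    ∃ E, GPath (fun t => CkV ρ (k t)) (fun j t => k' t j / k t j) (fun _ _ => 0) a b E := by
  have hkc : ∀ j, ContinuousOn (fun t => k t j) (Icc a b) := fun j t htt =>
    (hd t htt j).continuousAt.continuousWithinAt
  have hEc : ContinuousOn (fun t => ∑ j, (k t j * en0j ρ j + (k t j - 1))) (Icc a b) :=
    continuousOn_finsetSum _ fun j _ =>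
      ((hkc j).mul continuousOn_const).add ((hkc j).sub continuousOn_const)
  obtain ⟨E, hE⟩ := isCompact_Icc.exists_bound_of_continuousOn hEc
  refine ⟨E, ⟨fun t htt => ⟨_, reg_CkV hρ ht (hk t htt), (le_abs_self _).trans (hE t htt)⟩,
    fun t _ X => Eventually.of_forall fun t' => (psd_CkV hρ.posSemidef _ X).isHermitian,
    fun t htt x y => ?_, fun j => ?_, fun j => continuousOn_const, fun j t htt => ?_,
    fun j t _ => le_rfl⟩⟩
  · refine (hasDerivAt_CkV (hk t htt) (hd t htt) x y).congr_deriv ?_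
    refine Finset.sum_congr rfl fun j _ => ?_
    simp
  · exact (hc j).div (hkc j) fun t htt => (lt_trans one_pos (hk t htt j)).ne'
  · exact div_nonneg (h0 t htt j) (lt_trans one_pos (hk t htt j)).le

theorem Ppj_nonneg {s : Ker n} (hs : ∀ X, (cut X s).PosDef) (X : ℕ) (j : Fin n) :
    0 ≤ Ppj s X j := by
  unfold Ppj
  refine add_nonneg ?_ ?_
  · exact Finset.sum_nonneg fun x _ => diag_nonneg_of_cut (fun X => (hs X).posSemidef) x.1
  · exact intervalIntegral.integral_nonneg zero_le_one fun m hm =>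
      mul_nonneg (by linarith [hm.2]) (P369F.FXj_nonneg hs hm X j)

/-- the entropy is monotone in the vector of gains -/
theorem Sl_CkV_mono (hρ : ρ.PosDef) (ht : ρ.trace = 1) {k k₂ : Fin n → ℝ} (hk : ∀ j, 1 < k j)
    (hkk : ∀ j, k j ≤ k₂ j) : Sl (CkV ρ k) ≤ Sl (CkV ρ k₂) := by
  set p : ℝ → Fin n → ℝ := fun t j => k j + t * (k₂ j - k j) with hp
  have hp1 : ∀ t ∈ Icc (0 : ℝ) 1, ∀ j, 1 < p t j := fun t htt j => by
    have h1 := mul_nonneg htt.1 (sub_nonneg.2 (hkk j))
    simp only [hp]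
    linarith [hk j]
  obtain ⟨E, hE⟩ := gpath_CkV hρ ht (k := p) (k' := fun _ j => k₂ j - k j) (a := 0) (b := 1) hp1
    (fun t _ j => by
      have h := ((hasDerivAt_id t).mul_const (k₂ j - k j)).const_add (k j)
      rw [one_mul] at h
      exact h)
    (fun j => continuousOn_const) (fun t _ j => sub_nonneg.2 (hkk j))
  have h1 := hE.flow_low zero_le_one 0
  have h2 : 0 ≤ ∫ t in (0 : ℝ)..1, GPath.rateX (fun t => CkV ρ (p t))
      (fun j t => (k₂ j - k j) / p t j) (fun _ _ => 0) 0 t := by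
    refine intervalIntegral.integral_nonneg zero_le_one fun t htt => ?_
    unfold GPath.rateX
    refine Finset.sum_nonneg fun j _ => ?_
    rw [zero_mul, add_zero]
    refine mul_nonneg (div_nonneg (sub_nonneg.2 (hkk j)) (lt_trans one_pos (hp1 t htt j)).le) ?_
    exact Ppj_nonneg (fun X => posDef_CkV hρ (hp1 t htt) X) 0 j
  have e0 : p 0 = k := by
    funext j
    simp [hp]
  have e1 : p 1 = k₂ := by
    funext j
    simp [hp]
  rw [e0, e1] at h1
  linarith

/-- F5: the environment has at most the entropy of the output -/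
theorem Sl_DkV_le (hρ : ρ.PosDef) (ht : ρ.trace = 1) {k : Fin n → ℝ} (hk : ∀ j, 1 < k j) :
    Sl (DkV ρ k) ≤ Sl (CkV ρ k) :=
  Sl_DkV_le_reg hρ.posSemidef (reg_CkV hρ ht hk) (reg_DkV hρ ht hk)

/-- the environment of the extra gain `t` has at most the entropy of the output -/
theorem Sl_DkV_le_CkV (hρ : ρ.PosDef) (ht : ρ.trace = 1) {k : Fin n → ℝ} (hk : ∀ j, 1 < k j)
    {t : ℝ} (h1 : 1 < t) :
    Sl (DkV ρ (fun j => 1 + (t - 1) * k j)) ≤ Sl (CkV ρ (fun j => t * k j)) := by
  have h2 : ∀ j, 1 < 1 + (t - 1) * k j := fun j => by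
    have := mul_pos (sub_pos.2 h1) (lt_trans one_pos (hk j))
    linarith
  refine (Sl_DkV_le hρ ht h2).trans (Sl_CkV_mono hρ ht h2 fun j => ?_)
  have := hk j
  linarith

end

end Vale.Agent.P369W
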