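import Vale.Agent.P369.H809.Prod

set_option linter.all false

section

attribute [-instance] ProperSMul.toContinuousSMul IsTopologicalTorsor.toContinuousSMul IdemSemiring.toCanonicallyOrderedAdd IdemSemiring.toMulLeftMono IdemSemiring.toMulRightMono AddQuantale.instAddLeftMono AddQuantale.instAddRightMono Quantale.instMulLeftMono Quantale.instMulRightMono FiniteDimensional.rclike_to_real IsScalarTower.complexToReal FiniteDimensional.complexToReal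

/-!
P369 (helper400), Z3v-a: the pair inequality of ONE mode `j`.
-/

namespace Vale.Agent.P369W

open Matrix Filter Set
open Vale.Agent.P369 (Conf up down)
open Vale.Agent.P369A
open Vale.Agent.P369F (IXj FXj IXj_mono IXj_nonneg)
open scoped Kronecker ComplexOrder Topology

noncomputable section

variable {n : ℕ}

theorem pair_finj (j : Fin n) {g r : ℝ} (hg : 1 < g) {s : Conf n → Conf n → ℂ} (hH : Herm s)
    (hs : ∀ Y, (cut Y s).PosDef) (hC : ∀ X, (cut X (ampE g s)).PosDef) {X X' Y : ℕ}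
    (hXY : X + X' + 1 ≤ Y) {P : Matrix (Ct n X') (Ct n X') ℂ}
    {Q : Matrix (Ct n (X' + 1)) (Ct n (X' + 1)) ℂ} (hP : P.PosDef) (hQ : Q.PosDef)
    (hP1 : (P - cut X' (conE g (Y + 1) s)).PosSemidef)
    (hQ1 : (Q - cut (X' + 1) (conE g Y s)).PosSemidef) {p p' ν : ℝ} (hp : 0 ≤ p) (hp' : 0 ≤ p')
    (hpp : p + p' = 1) (hν : ν ∈ Icc (0 : ℝ) 1) :
    p * (IXj (1 - p * ν) (g * (r + 1) - 1) (ampE g s) X j / g) +
      p' * Qf (p' * ν) P Q (ZY g r s Y X' j) ≤ IXj (1 - ν) r s Y j := by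
  have hg0 : 0 < g := one_pos.trans hg
  have hp1 : p ≤ 1 := by linarith only [hp', hpp]
  have hp1' : p' ≤ 1 := by linarith only [hp, hpp]
  have hpν : 1 - p * ν ∈ Icc (0 : ℝ) 1 :=
    ⟨sub_nonneg.2 (mul_le_one₀ hp1 hν.1 hν.2), by linarith only [mul_nonneg hp hν.1]⟩
  have hpν' : p' * ν ∈ Icc (0 : ℝ) 1 := ⟨mul_nonneg hp' hν.1, mul_le_one₀ hp1' hν.1 hν.2⟩
  have hν' : 1 - ν ∈ Icc (0 : ℝ) 1 := ⟨sub_nonneg.2 hν.2, by linarith only [hν.1]⟩
  unfold IXj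
  set ZC : Matrix (Ct n X) (Ct n (X + 1)) ℂ := Zr (g * (r + 1) - 1) (ampE g s) X j with hZC
  set ZD : Matrix (Ct n X') (Ct n (X' + 1)) ℂ := ZY g r s Y X' j with hZD
  set V : Matrix (Ct n X) (Ct n (X + 1)) ℂ := ((1 / Real.sqrt g : ℝ) : ℂ) •
    Kinv (1 - p * ν) (cut X (ampE g s)) (cut (X + 1) (ampE g s)) ZC with hV
  set W : Matrix (Ct n X') (Ct n (X' + 1)) ℂ := Kinv (p' * ν) P Q ZD with hW
  set L : ℕ := X + X' + 1 with hL
  have h1 := pen_pair (n := n) hg.le (hs (Y + 1)).posSemidef (show X + 1 ≤ L by omega)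
    (show X' + 1 ≤ L by omega) hXY (le_refl (Y + 1 + L)) V W hp hp' hpp hν
  have h2 := two_re_sub_pen_le hν' (hs Y) (hs (Y + 1)) (Zr r s Y j)
    ((Jw (n := n) g (Y + 1 + L) L Y)ᴴ * tst p p' (extR (Y + 1 + L) V) (extR L W) *
      Jw (n := n) g (Y + 1 + L) L (Y + 1))
  have h3 : ((Zr r s Y j)ᴴ * ((Jw (n := n) g (Y + 1 + L) L Y)ᴴ *
      tst p p' (extR (Y + 1 + L) V) (extR L W) * Jw (n := n) g (Y + 1 + L) L (Y + 1))).trace.re =
      p * (1 / Real.sqrt g * (ZCᴴ * V).trace.re) + p' * (ZDᴴ * W).trace.re := by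
    rw [tst, Matrix.mul_add, Matrix.add_mul, Matrix.mul_add, trace_add, Complex.add_re,
      Matrix.mul_smul, Matrix.smul_mul, Matrix.mul_smul, trace_smul, smul_eq_mul,
      Complex.re_ofReal_mul, Matrix.mul_smul, Matrix.smul_mul, Matrix.mul_smul, trace_smul,
      smul_eq_mul, Complex.re_ofReal_mul, lin_C hg r hH (by omega) (by omega) le_rfl j V,
      lin_D hg r hH (by omega) le_rfl j W]
  have h4 : pen (p' * ν) (cut X' (conE g (Y + 1) s)) (cut (X' + 1) (conE g Y s)) W ≤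
      pen (p' * ν) P Q W := pen_mono hpν' hP1 hQ1 W
  have q1 : (ZCᴴ * V).trace.re = 1 / Real.sqrt g *
      Qf (1 - p * ν) (cut X (ampE g s)) (cut (X + 1) (ampE g s)) ZC := by
    rw [hV, Matrix.mul_smul, trace_smul, smul_eq_mul, Complex.re_ofReal_mul]
    rfl
  have q2 : (ZDᴴ * W).trace.re = Qf (p' * ν) P Q ZD := rfl
  have q3 : pen (1 - p * ν) (cut X (ampE g s)) (cut (X + 1) (ampE g s)) V =
      (1 / Real.sqrt g) ^ 2 * Qf (1 - p * ν) (cut X (ampE g s)) (cut (X + 1) (ampE g s)) ZC := by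
    rw [hV, pen_smul, pen_Kinv hpν (hC X) (hC (X + 1))]
  have q4 : pen (p' * ν) P Q W = Qf (p' * ν) P Q ZD := by
    rw [hW, pen_Kinv hpν' hP hQ]
  have hsg : (1 / Real.sqrt g) ^ 2 = 1 / g := by rw [div_pow, one_pow, Real.sq_sqrt hg0.le]
  rw [h3, q1, q2, ← mul_assoc (1 / Real.sqrt g), ← sq, hsg] at h2
  rw [q3, hsg] at h1
  rw [q4] at h4
  have h5 := mul_le_mul_of_nonneg_left h4 hp'
  have h6 : p * (Qf (1 - p * ν) (cut X (ampE g s)) (cut (X + 1) (ampE g s)) ZC / g) =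
      p * (1 / g * Qf (1 - p * ν) (cut X (ampE g s)) (cut (X + 1) (ampE g s)) ZC) := by ring
  rw [h6]
  linarith only [h1, h2, h5]

/-- the environment functional at cutoff `Y` of the base -/
def idFj (j : Fin n) (s : Conf n → Conf n → ℂ) (r : ℝ) (X Y : ℕ) (t μ : ℝ) : ℝ :=
  Qf μ (PY t s Y X X) (PY t s Y X (X + 1)) (ZY t r s Y X j)

theorem idFj_nonneg (j : Fin n) {s : Conf n → Conf n → ℂ} (hs : ∀ Y, (cut Y s).PosSemidef) (r : ℝ) (X Y : ℕ)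
    (t : ℝ) {μ : ℝ} (hμ : μ ∈ Icc (0 : ℝ) 1) : 0 ≤ idFj j s r X Y t μ :=
  Qf_nonneg hμ (posDef_PY hs X X) (posDef_PY hs X (X + 1)) _

/-- the pair inequality -/
theorem idFj_pair (j : Fin n) {s : Conf n → Conf n → ℂ} (hs : ∀ Y, (cut Y s).PosDef) {t : ℝ} (ht : 1 < t)
    (hC : ∀ X, (cut X (ampE t s)).PosDef) (r : ℝ) {X X' Y : ℕ} (hXY : X + X' + 1 ≤ Y) {l ν : ℝ}
    (hl : 0 ≤ l) (hlν : l ≤ ν) (hν : ν ≤ 1) :
    (1 - ν) * (IXj ν (t * (r + 1) - 1) (ampE t s) X j / t) + (ν - l) * idFj j s r X' Y t (ν - l) ≤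
      (1 - l) * IXj l r s Y j := by
  have hs' : ∀ Y, (cut Y s).PosSemidef := fun Y => (hs Y).posSemidef
  rcases (hlν.trans hν).eq_or_lt with h | h
  · have h1 : ν = 1 := le_antisymm hν (h ▸ hlν)
    rw [h, h1]
    simp
  · have h0 : 0 < 1 - l := by linarith only [h]
    have hp : 0 ≤ (1 - ν) / (1 - l) := div_nonneg (by linarith only [hν]) h0.le
    have hp' : 0 ≤ (ν - l) / (1 - l) := div_nonneg (by linarith only [hlν]) h0.le
    have hpp : (1 - ν) / (1 - l) + (ν - l) / (1 - l) = 1 := by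
      field_simp
      ring
    have h2 := pair_finj j (r := r) ht (herm_of_cut hs') hs hC hXY (posDef_PY (t := t) (Y := Y) hs' X' X')
      (posDef_PY (t := t) (Y := Y) hs' X' (X' + 1)) PY_sub₁ (PY_sub₀ hs' (le_refl (X' + 1)))
      hp hp' hpp (ν := 1 - l) ⟨h0.le, by linarith only [hl]⟩
    have e1 : 1 - (1 - ν) / (1 - l) * (1 - l) = ν := by
      rw [div_mul_cancel₀ _ h0.ne']
      ring
    have e2 : (ν - l) / (1 - l) * (1 - l) = ν - l := div_mul_cancel₀ _ h0.ne'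
    have e3 : 1 - (1 - l) = l := by ring
    rw [e1, e2, e3] at h2
    have h3 := mul_le_mul_of_nonneg_left h2 h0.le
    refine le_trans (le_of_eq ?_) h3
    unfold idFj
    (clear * - ht h; field_simp)

/-- data processing -/
theorem idFj_dp (j : Fin n) {s : Conf n → Conf n → ℂ} (hs : ∀ Y, (cut Y s).PosDef) {t : ℝ} (ht : 1 < t)
    (hC : ∀ X, (cut X (ampE t s)).PosDef) (r : ℝ) {X Y : ℕ} (hXY : X + 1 ≤ Y) {ν : ℝ}
    (hν : ν ∈ Icc (0 : ℝ) 1) : IXj ν (t * (r + 1) - 1) (ampE t s) X j / t ≤ IXj ν r s Y j := by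
  have hs' : ∀ Y, (cut Y s).PosSemidef := fun Y => (hs Y).posSemidef
  have h2 := pair_finj j (r := r) (X' := 0) ht (herm_of_cut hs') hs hC (by omega)
    (posDef_PY (t := t) (Y := Y) hs' 0 0)
    (posDef_PY (t := t) (Y := Y) hs' 0 1) PY_sub₁ (PY_sub₀ hs' (le_refl 1))
    zero_le_one le_rfl (add_zero 1) (ν := 1 - ν) ⟨by linarith only [hν.2], by linarith only [hν.1]⟩
  have e1 : 1 - 1 * (1 - ν) = ν := by ring
  have e3 : 1 - (1 - ν) = ν := by ring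
  rw [e1, e3, one_mul, zero_mul, add_zero] at h2
  exact h2

theorem continuousOn_idFj (j : Fin n) {s : Conf n → Conf n → ℂ} (hs : ∀ Y, (cut Y s).PosSemidef) (r : ℝ)
    (X Y : ℕ) : ContinuousOn (Function.uncurry (idFj j s r X Y)) (Ioi 1 ×ˢ Icc 0 1) := by
  unfold idFj Function.uncurry
  refine continuousOn_Qf.comp (f := fun p : ℝ × ℝ =>
    (p.2, PY p.1 s Y X X, PY p.1 s Y X (X + 1), ZY p.1 r s Y X j)) ?_ ?_
  · have hf : MapsTo (Prod.fst : ℝ × ℝ → ℝ) (Ioi 1 ×ˢ Icc 0 1) (Ioi 1) := fun p hp => hp.1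
    exact continuousOn_snd.prodMk (((continuousOn_PY s Y X X).comp continuousOn_fst hf).prodMk
      (((continuousOn_PY s Y X (X + 1)).comp continuousOn_fst hf).prodMk
        ((continuousOn_ZY s r Y X j).comp continuousOn_fst hf)))
  · intro p hp
    exact ⟨hp.2, posDef_PY hs X X, posDef_PY hs X (X + 1), mem_univ _⟩

theorem tendsto_idFj (j : Fin n) {s D : Conf n → Conf n → ℂ} (hs : ∀ Y, (cut Y s).PosSemidef)
    {t : ℝ} (ht : 1 < t) (r : ℝ) (hD : ∀ X, (cut X D).PosDef)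
    (hlim : ∀ l l' : Conf n, Tendsto (fun Y => conE t Y s l l') atTop (𝓝 (D l l'))) (X : ℕ)
    {μ : ℝ} (hμ : μ ∈ Icc (0 : ℝ) 1) :
    Tendsto (fun Y => idFj j s r X Y t μ) atTop
      (𝓝 (IXj μ ((t - 1) * (r + 1)) D X j / (t - 1))) := by
  have hDh : Herm D := herm_of_cut fun Y => (hD Y).posSemidef
  have h0 : (0 : ℝ) < t - 1 := by linarith
  have e1 : IXj μ ((t - 1) * (r + 1)) D X j / (t - 1) = Qf μ (cut X D) (cut (X + 1) D)
      (((1 / Real.sqrt (t - 1) : ℝ) : ℂ) • Zr ((t - 1) * (r + 1)) D X j) := by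
    unfold IXj
    rw [Qf_smul, div_pow, one_pow, Real.sq_sqrt h0.le]
    ring
  rw [e1]
  unfold idFj
  exact tendsto_Qf hμ (fun Y => posDef_PY hs X X)
    (fun Y => posDef_PY hs X (X + 1)) (hD X) (hD (X + 1)) (tendsto_PY hlim X X)
    (tendsto_PY hlim X (X + 1)) (tendsto_ZY ht r hDh hlim X j)

/-- the free window for the quadratic forms, at finite cutoff of the base -/
theorem free_finj (j : Fin n) {g r : ℝ} (hg : 1 < g) {s : Conf n → Conf n → ℂ} (hH : Herm s)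
    (hs : ∀ Y, (cut Y s).PosDef) {X Y : ℕ} {P : Matrix (Ct n X) (Ct n X) ℂ}
    {Q : Matrix (Ct n (X + 1)) (Ct n (X + 1)) ℂ} (hP : P.PosDef) (hQ : Q.PosDef)
    (hP0 : (P - cut X (conE g Y s)).PosSemidef) (hP1 : (P - cut X (conE g (Y + 1) s)).PosSemidef)
    (hQ0 : (Q - cut (X + 1) (conE g Y s)).PosSemidef)
    (hQ1 : (Q - cut (X + 1) (conE g (Y + 1) s)).PosSemidef) {μ lam : ℝ}
    (hμ : μ ∈ Icc (0 : ℝ) 1) (hl : lam ∈ Icc (0 : ℝ) 1) :
    Qf μ P Q (ZY g r s Y X j) ≤ IXj lam r s Y j := by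
  unfold IXj
  set W : Matrix (Ct n X) (Ct n (X + 1)) ℂ := Kinv μ P Q (ZY g r s Y X j) with hW
  have h1 := free_pen (n := n) hg.le (hs (Y + 1)).posSemidef (le_refl (X + 1))
    (le_refl (Y + 1 + (X + 1))) W hl hμ
  have h2 := two_re_sub_pen_le hl (hs Y) (hs (Y + 1)) (Zr r s Y j)
    ((Jw (n := n) g (Y + 1 + (X + 1)) (X + 1) Y)ᴴ *
      ((1 : Matrix (Ct n (Y + 1 + (X + 1))) (Ct n (Y + 1 + (X + 1))) ℂ) ⊗ₖ (extR (X + 1) W)ᴴ) *
      Jw (n := n) g (Y + 1 + (X + 1)) (X + 1) (Y + 1))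
  rw [lin_D hg r hH (le_refl (X + 1)) le_rfl j W] at h2
  have h3 : pen μ (cut X (conE g (Y + 1) s)) (cut (X + 1) (conE g (Y + 1) s)) W ≤
      pen μ P Q W := pen_mono hμ hP1 hQ1 W
  have h4 : pen μ (cut X (conE g Y s)) (cut (X + 1) (conE g Y s)) W ≤
      pen μ P Q W := pen_mono hμ hP0 hQ0 W
  have q2 : ((ZY g r s Y X j)ᴴ * W).trace.re = Qf μ P Q (ZY g r s Y X j) := rfl
  have q4 : pen μ P Q W = Qf μ P Q (ZY g r s Y X j) := by
    rw [hW, pen_Kinv hμ hP hQ]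
  rw [q4] at h3 h4
  rw [q2] at h2
  have n1 := mul_le_mul_of_nonneg_left h3 (sub_nonneg.2 hl.2)
  have n2 := mul_le_mul_of_nonneg_left h4 hl.1
  linarith only [h1, h2, n1, n2]

/-- data processing, also at `t = 1` -/
theorem idFj_dp' (j : Fin n) {s : Conf n → Conf n → ℂ} (hs : ∀ Y, (cut Y s).PosDef) (h1 : ampE 1 s = s)
    {t : ℝ} (ht : 1 ≤ t) (hC : ∀ X, (cut X (ampE t s)).PosDef) (r : ℝ) {X Y : ℕ}
    (hXY : X + 1 ≤ Y) {ν : ℝ} (hν : ν ∈ Icc (0 : ℝ) 1) :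
    IXj ν (t * (r + 1) - 1) (ampE t s) X j / t ≤ IXj ν r s Y j := by
  rcases ht.eq_or_lt with h | h
  · subst h
    rw [h1, one_mul, div_one, add_sub_cancel_right]
    exact IXj_mono hs hν r j (by omega)
  · exact idFj_dp j hs h hC r hXY hν

/-- `pair_final` for a base `s` -/
theorem pair_final_genj (j : Fin n) {s : Conf n → Conf n → ℂ} (hs : ∀ Y, (cut Y s).PosDef)
    (h1 : ampE 1 s = s) {C D : ℝ → Conf n → Conf n → ℂ} (hC : ∀ t, 1 ≤ t → ampE t s = C t)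
    (hCp : ∀ t, 1 ≤ t → ∀ X, (cut X (C t)).PosDef) (hDp : ∀ t, 1 < t → ∀ X, (cut X (D t)).PosDef)
    (hlim : ∀ t, 1 < t → ∀ l l' : Conf n,
      Tendsto (fun Y => conE t Y s l l') atTop (𝓝 (D t l l'))) (R : ℝ) (X X' : ℕ) :
    ∃ idY : ℕ → ℝ → ℝ → ℝ,
      (∀ᶠ Y in atTop,
        (∀ t₁ T, 1 < t₁ → ContinuousOn (Function.uncurry (idY Y)) (Icc t₁ T ×ˢ Icc 0 1)) ∧
        (∀ t, 1 < t → ∀ μ ∈ Icc (0 : ℝ) 1, 0 ≤ idY Y t μ) ∧
        (∀ t, 1 < t → ∀ l ν : ℝ, 0 ≤ l → l ≤ ν → ν ≤ 1 →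
          (1 - ν) * (IXj ν (t * (R + 1) - 1) (C t) X j / t) + (ν - l) * idY Y t (ν - l) ≤
            (1 - l) * IXj l R s Y j) ∧
        (∀ t, 1 ≤ t → ∀ ν ∈ Icc (0 : ℝ) 1,
          IXj ν (t * (R + 1) - 1) (C t) X j / t ≤ IXj ν R s Y j) ∧
        (∀ t, 1 < t → ∀ l ∈ Icc (0 : ℝ) 1, ∀ μ ∈ Icc (0 : ℝ) 1,
          idY Y t μ ≤ IXj l R s Y j)) ∧
      (∀ t, 1 < t → ∀ μ ∈ Icc (0 : ℝ) 1, Tendsto (fun Y => idY Y t μ) atTop
        (𝓝 (IXj μ ((t - 1) * (R + 1)) (D t) X' j / (t - 1)))) := by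
  have hs' : ∀ Y, (cut Y s).PosSemidef := fun Y => (hs Y).posSemidef
  have hH : Herm s := herm_of_cut hs'
  refine ⟨fun Y t μ => idFj j s R X' Y t μ, ?_, fun t ht μ hμ =>
    tendsto_idFj j hs' ht R (hDp t ht) (hlim t ht) X' hμ⟩
  filter_upwards [eventually_ge_atTop (X + X' + 1)] with Y hY
  have hCt : ∀ t, 1 ≤ t → ∀ X, (cut X (ampE t s)).PosDef := fun t ht X => by
    rw [hC t ht]
    exact hCp t ht X
  refine ⟨fun t₁ T h => ?_, fun t _ μ hμ => idFj_nonneg j hs' R X' Y t hμ,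
    fun t ht l ν hl hlν hν => ?_, fun t ht ν hν => ?_, fun t ht l hl μ hμ => ?_⟩
  · exact (continuousOn_idFj j hs' R X' Y).mono (prod_mono (fun t ht => h.trans_le ht.1) le_rfl)
  · have h := idFj_pair j hs ht (hCt t ht.le) R hY hl hlν hν
    rwa [hC t ht.le] at h
  · have h := idFj_dp' j hs h1 ht (hCt t ht) R (X := X) (Y := Y) (by omega) hν
    rwa [hC t ht] at h
  · exact free_finj j ht hH hs (posDef_PY hs' X' X') (posDef_PY hs' X' (X' + 1))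
      (PY_sub₀ hs' (by omega)) PY_sub₁ (PY_sub₀ hs' (le_refl (X' + 1))) PY_sub₁ hμ hl


end

end Vale.Agent.P369W

end
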