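import Vale.Agent.P369.H400.VecD
import Vale.Agent.P369.H400.PairJ

set_option linter.all false

/-!
P369 (helper400): the per-mode pair inequality for the families `CkV`, `DkV` (extra gain `t`
common to all modes).
-/

namespace Vale.Agent.P369W

open Matrix Filter Set
open Vale.Agent.P369 (Conf up down)
open Vale.Agent.P369A
open Vale.Agent.P369F (IXj FXj)
open scoped Kronecker ComplexOrder Topology

noncomputable section

variable {n M : ℕ} {ρ : Matrix (Fin n → Fin (M + 1)) (Fin n → Fin (M + 1)) ℂ}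

/-- Q: the pair inequality of mode `j` -/
theorem pair_finalV (j : Fin n) (hρ : ρ.PosDef) {k₀ : Fin n → ℝ} (hk : ∀ i, 1 < k₀ i) (R : ℝ)
    (X X' : ℕ) : ∃ idY : ℕ → ℝ → ℝ → ℝ,
      (∀ᶠ Y in atTop,
        (∀ t₁ T, 1 < t₁ → ContinuousOn (Function.uncurry (idY Y)) (Icc t₁ T ×ˢ Icc 0 1)) ∧
        (∀ t, 1 < t → ∀ μ ∈ Icc (0 : ℝ) 1, 0 ≤ idY Y t μ) ∧
        (∀ t, 1 < t → ∀ l ν : ℝ, 0 ≤ l → l ≤ ν → ν ≤ 1 →
          (1 - ν) * (IXj ν (t * (R + 1) - 1) (CkV ρ (fun i => t * k₀ i)) X j / t) +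
              (ν - l) * idY Y t (ν - l) ≤
            (1 - l) * IXj l R (CkV ρ k₀) Y j) ∧
        (∀ t, 1 ≤ t → ∀ ν ∈ Icc (0 : ℝ) 1,
          IXj ν (t * (R + 1) - 1) (CkV ρ (fun i => t * k₀ i)) X j / t ≤
            IXj ν R (CkV ρ k₀) Y j) ∧
        (∀ t, 1 < t → ∀ l ∈ Icc (0 : ℝ) 1, ∀ μ ∈ Icc (0 : ℝ) 1,
          idY Y t μ ≤ IXj l R (CkV ρ k₀) Y j)) ∧
      (∀ t, 1 < t → ∀ μ ∈ Icc (0 : ℝ) 1, Tendsto (fun Y => idY Y t μ) atTop
        (𝓝 (IXj μ ((t - 1) * (R + 1)) (DkV ρ (fun i => 1 + (t - 1) * k₀ i)) X' j / (t - 1)))) := by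
  refine pair_final_genj j (s := CkV ρ k₀) (C := fun t => CkV ρ (fun i => t * k₀ i))
    (D := fun t => DkV ρ (fun i => 1 + (t - 1) * k₀ i)) (posDef_CkV hρ hk) (ampE_one _)
    (fun t ht => ampE_CkV ht fun i => (hk i).le) (fun t ht X => posDef_CkV hρ (fun i => ?_) X)
    (fun t ht X => posDef_DkV hρ (fun i => ?_) X)
    (fun t ht l l' => tendsto_conE_CkV ht.le (fun i => (hk i).le) l l') R X X'
  · have := hk i
    nlinarith only [this, ht]
  · have := hk i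
    nlinarith only [ht, this]

end

end Vale.Agent.P369W
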