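import Vale.Agent.P369.H400.VecC

set_option linter.all false

section

attribute [-instance] ProperSMul.toContinuousSMul IsTopologicalTorsor.toContinuousSMul IdemSemiring.toCanonicallyOrderedAdd IdemSemiring.toMulLeftMono IdemSemiring.toMulRightMono AddQuantale.instAddLeftMono AddQuantale.instAddRightMono Quantale.instMulLeftMono Quantale.instMulRightMono FiniteDimensional.rclike_to_real IsScalarTower.complexToReal FiniteDimensional.complexToReal

/-!
P369 (helper400): vector gains: joint continuity in the vector of gains, gain one, and lower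
semicontinuity of the entropy at a finite matrix.
-/

namespace Vale.Agent.P369W

open Matrix Filter Topology MeasureTheory Set
open Vale.Agent.P369 (Conf up down)
open Vale.Agent.P369A
open Vale.Agent.P369V (ent)
open scoped Kronecker ComplexOrder

noncomputable section

variable {n : ℕ}

theorem continuousOn_c1 (a b : ℕ) : ContinuousOn (fun t => c1 t a b) (Ioi 0) := by
  unfold c1
  have h1 : ContinuousOn (fun t : ℝ => (Real.sqrt t)⁻¹) (Ioi 0) :=
    Real.continuous_sqrt.continuousOn.inv₀ fun t ht => (Real.sqrt_pos.2 ht).ne'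
  have h2 : ContinuousOn (fun t : ℝ => Real.sqrt (1 - 1 / t)) (Ioi 0) :=
    (continuousOn_const.sub (continuousOn_const.div continuousOn_id
      fun t ht => (show (0 : ℝ) < t from ht).ne')).sqrt
  exact (continuousOn_const.mul (h1.pow _)).mul (h2.pow _)

/-- the vectors of positive gains -/
def posV (n : ℕ) : Set (Fin n → ℝ) := {k | ∀ j, 0 < k j}

theorem continuousOn_ccV (m l : Conf n) : ContinuousOn (fun k => ccV k m l) (posV n) := by
  unfold ccV
  refine continuousOn_finsetProd _ fun j _ => ?_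
  exact (continuousOn_c1 (m j) (l j)).comp (continuous_apply j).continuousOn fun k hk => hk j

theorem continuousOn_ampV (s : Ker n) (x y : Conf n) :
    ContinuousOn (fun k => ampV k s x y) (posV n) := by
  unfold ampV
  refine continuousOn_finsetSum _ fun l _ => ?_
  exact (Complex.continuous_ofReal.comp_continuousOn
    ((continuousOn_ccV _ _).mul (continuousOn_ccV _ _))).mul continuousOn_const

theorem continuousOn_conV (Y : ℕ) (s : Ker n) (l l' : Conf n) :
    ContinuousOn (fun k => conV k Y s l l') (posV n) := by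
  unfold conV
  refine continuousOn_finsetSum _ fun m _ => continuousOn_finsetSum _ fun m' _ => ?_
  by_cases h : m.1 + l = m'.1 + l'
  · simp only [if_pos h]
    exact (Complex.continuous_ofReal.comp_continuousOn
      ((continuousOn_ccV _ _).mul (continuousOn_ccV _ _))).mul continuousOn_const
  · simp only [if_neg h]
    exact continuousOn_const

theorem ampV_one (s : Ker n) : ampV (fun _ => 1) s = s := ampE_one s

variable {M : ℕ} {ρ : Matrix (Fin n → Fin (M + 1)) (Fin n → Fin (M + 1)) ℂ}

theorem CkV_one : CkV ρ (fun _ => 1) = ext ρ := ampE_one _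

theorem continuousOn_CkV (x y : Conf n) : ContinuousOn (fun k => CkV ρ k x y) (posV n) :=
  continuousOn_ampV _ x y

theorem continuousOn_DkV (x y : Conf n) : ContinuousOn (fun k => DkV ρ k x y) (posV n) :=
  continuousOn_conV _ _ x y

/-- along a continuous path of gains -/
theorem continuousOn_CkV_comp {S : Set ℝ} {k : ℝ → Fin n → ℝ} (hk : ∀ t ∈ S, ∀ j, 0 < k t j)
    (hc : ∀ j, ContinuousOn (fun t => k t j) S) (x y : Conf n) :
    ContinuousOn (fun t => CkV ρ (k t) x y) S :=
  (continuousOn_CkV x y).comp (continuousOn_pi.2 hc) fun t ht => hk t ht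

theorem continuousOn_DkV_comp {S : Set ℝ} {k : ℝ → Fin n → ℝ} (hk : ∀ t ∈ S, ∀ j, 0 < k t j)
    (hc : ∀ j, ContinuousOn (fun t => k t j) S) (x y : Conf n) :
    ContinuousOn (fun t => DkV ρ (k t) x y) S :=
  (continuousOn_DkV x y).comp (continuousOn_pi.2 hc) fun t ht => hk t ht

/-- along a continuous path of gains and of kernels -/
theorem continuousOn_ampV_comp {S : Set ℝ} {k : ℝ → Fin n → ℝ} {s : ℝ → Ker n}
    (hk : ∀ t ∈ S, ∀ j, 0 < k t j) (hc : ∀ j, ContinuousOn (fun t => k t j) S)
    (hs : ∀ x y, ContinuousOn (fun t => s t x y) S) (x y : Conf n) :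
    ContinuousOn (fun t => ampV (k t) (s t) x y) S := by
  have h : ∀ m l : Conf n, ContinuousOn (fun t => ccV (k t) m l) S := fun m l =>
    (continuousOn_ccV m l).comp (continuousOn_pi.2 hc) fun t ht => hk t ht
  unfold ampV
  refine continuousOn_finsetSum _ fun l _ => ?_
  exact (Complex.continuous_ofReal.comp_continuousOn ((h _ _).mul (h _ _))).mul (hs _ _)

theorem continuousOn_ext_comp {S : Set ℝ}
    {ρ : ℝ → Matrix (Fin n → Fin (M + 1)) (Fin n → Fin (M + 1)) ℂ}
    (hs : ∀ x y, ContinuousOn (fun t => ρ t x y) S) (x y : Conf n) :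
    ContinuousOn (fun t => ext (ρ t) x y) S := by
  unfold P369A.ext
  by_cases h : (∀ j, x j < M + 1) ∧ (∀ j, y j < M + 1)
  · simp only [dif_pos h]
    exact hs _ _
  · simp only [dif_neg h]
    exact continuousOn_const

/-- along a continuous path of gains and of finite matrices -/
theorem continuousOn_CkV_comp2 {S : Set ℝ} {k : ℝ → Fin n → ℝ}
    {ρ : ℝ → Matrix (Fin n → Fin (M + 1)) (Fin n → Fin (M + 1)) ℂ}
    (hk : ∀ t ∈ S, ∀ j, 0 < k t j) (hc : ∀ j, ContinuousOn (fun t => k t j) S)
    (hs : ∀ x y, ContinuousOn (fun t => ρ t x y) S) (x y : Conf n) :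
    ContinuousOn (fun t => CkV (ρ t) (k t) x y) S :=
  continuousOn_ampV_comp hk hc (continuousOn_ext_comp hs) x y

theorem z3_cont_CV {k₀ : Fin n → ℝ} (hk : ∀ j, 0 < k₀ j) (T : ℝ) (x y : Conf n) :
    ContinuousOn (fun t => CkV ρ (fun j => t * k₀ j) x y) (Icc 1 T) :=
  continuousOn_CkV_comp (k := fun t j => t * k₀ j)
    (fun t ht j => mul_pos (lt_of_lt_of_le one_pos ht.1) (hk j)) (fun j => by fun_prop) x y

theorem z3_cont_DV {k₀ : Fin n → ℝ} (hk : ∀ j, 0 < k₀ j) {t₁ : ℝ} (ht₁ : 1 ≤ t₁) (T : ℝ)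
    (x y : Conf n) :
    ContinuousOn (fun t => DkV ρ (fun j => 1 + (t - 1) * k₀ j) x y) (Icc t₁ T) :=
  continuousOn_DkV_comp (k := fun t j => 1 + (t - 1) * k₀ j)
    (fun t ht j => by
      have h1 : 0 ≤ t - 1 := by linarith only [ht₁, ht.1]
      have h2 := mul_nonneg h1 (hk j).le
      linarith only [h2]) (fun j => by fun_prop) x y

/-- lower semicontinuity of the entropy at a finite matrix, along a sequence -/
theorem ent_sub_le_Sl_of_seq {s : ℕ → Ker n}
    (hρ : ρ.PosSemidef) (ht : ρ.trace = 1) (hreg : ∀ m, ∃ E, Reg (s m) E)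
    (hC : ∀ x y : Conf n, Tendsto (fun m => s m x y) atTop (𝓝 (ext ρ x y))) {ε : ℝ} (hε : 0 < ε) :
    ∀ᶠ m in atTop, ent ρ - ε ≤ Sl (s m) := by
  have hcut : Tendsto (fun m => cut (n * M) (s m)) atTop (𝓝 (cut (n * M) (ext ρ))) := by
    refine tendsto_pi_nhds.2 fun x => tendsto_pi_nhds.2 fun y => ?_
    exact hC x.1 y.1
  have hpe : (cut (n * M) (ext ρ)).PosSemidef := by
    obtain ⟨V, -, h⟩ := ent_cut_ext_aux (n := n) (M := M) (X := n * M) le_rfl
    rw [h ρ]
    exact hρ.mul_mul_conjTranspose_same V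
  have hE := P369V.g4_tendsto_ent (fun m => by
    obtain ⟨E, hE⟩ := hreg m
    exact (hE.pos (n * M)).posSemidef) hpe hcut
  rw [ent_cut_ext le_rfl hρ] at hE
  have htr : Tendsto (fun m => trX (s m) (n * M)) atTop (𝓝 1) := by
    rw [← trX_ext (n := n) (M := M) (ρ := ρ) ht]
    unfold trX
    refine tendsto_finsetSum _ fun x _ => ?_
    exact (Complex.continuous_re.tendsto _).comp (hC x.1 x.1)
  have hR : Tendsto (fun m => ent (cut (n * M) (s m)) - (1 - trX (s m) (n * M))) atTop
      (𝓝 (ent ρ - (1 - 1))) := hE.sub (tendsto_const_nhds.sub htr)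
  rw [sub_self, sub_zero] at hR
  filter_upwards [hR.eventually (eventually_gt_nhds (show ent ρ - ε < ent ρ by linarith only [hε]))]
    with m hm
  obtain ⟨E, hE'⟩ := hreg m
  have h1 := hE'.ent_le (n * M)
  linarith only [h1, hm]

/-- lower semicontinuity of the entropy at a finite matrix: start of the flow -/
theorem ent_sub_le_Sl_of_tendsto {α : Type*} {F : Filter α} [F.IsCountablyGenerated]
    {s : α → Ker n} (hρ : ρ.PosSemidef) (ht : ρ.trace = 1) (hreg : ∀ᶠ m in F, ∃ E, Reg (s m) E)
    (hC : ∀ x y : Conf n, Tendsto (fun m => s m x y) F (𝓝 (ext ρ x y))) {ε : ℝ} (hε : 0 < ε) :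
    ∀ᶠ m in F, ent ρ - ε ≤ Sl (s m) := by
  by_contra hcon
  rw [not_eventually] at hcon
  obtain ⟨u, hu, hu'⟩ := exists_seq_forall_of_frequently (hcon.and_eventually hreg)
  have h := ent_sub_le_Sl_of_seq (s := fun m => s (u m)) hρ ht (fun m => (hu' m).2)
    (fun x y => (hC x y).comp hu) hε
  obtain ⟨m, hm⟩ := h.exists
  exact (hu' m).1 hm

end

end Vale.Agent.P369W

end
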