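import Vale.Agent.P369.Bd3.B2

set_option linter.all false

/-!
P369 (helper400): the amplifier channel and its complement with a VECTOR of gains
`k : Fin n → ℝ`, definitions. Names: `ccV, ampV, conV, JwV, CkV, DkV`.
-/

namespace Vale.Agent.P369W

open Matrix
open Vale.Agent.P369 (Conf up down)
open Vale.Agent.P369A (Ct cut cutR annR c1 ext Ker)

noncomputable section

variable {n : ℕ}

/-- matrix elements of the amplifier isometry, gain `k j` in mode `j` -/
def ccV (k : Fin n → ℝ) (m l : Conf n) : ℝ := ∏ j, c1 (k j) (m j) (l j)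

/-- the amplifier channel with gain `k j` in mode `j` -/
def ampV (k : Fin n → ℝ) (s : Conf n → Conf n → ℂ) : Conf n → Conf n → ℂ := fun x y =>
  ∑ l ∈ Finset.Iic (x ⊓ y), ((ccV k (x - l) l * ccV k (y - l) l : ℝ) : ℂ) * s (x - l) (y - l)

/-- the complementary channel, for the compression of `s` to at most `Y` photons -/
def conV (k : Fin n → ℝ) (Y : ℕ) (s : Conf n → Conf n → ℂ) : Conf n → Conf n → ℂ := fun l l' =>
  ∑ m : Ct n Y, ∑ m' : Ct n Y, if m.1 + l = m'.1 + l' then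
    ((ccV k m.1 l * ccV k m'.1 l' : ℝ) : ℂ) * s m.1 m'.1 else 0

/-- the isometry of the amplifier, cut to `|x| ≤ Γ`, `|l| ≤ L`, `|m| ≤ Y` -/
def JwV (k : Fin n → ℝ) (Γ L Y : ℕ) : Matrix (Ct n Γ × Ct n L) (Ct n Y) ℂ := fun xl m =>
  if xl.1.1 = m.1 + xl.2.1 then ((ccV k m.1 xl.2.1 : ℝ) : ℂ) else 0

variable {M : ℕ}

/-- the amplifier family -/
def CkV (ρ : Matrix (Fin n → Fin (M + 1)) (Fin n → Fin (M + 1)) ℂ) (k : Fin n → ℝ) : Ker n :=
  ampV k (ext ρ)

/-- the environment family -/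
def DkV (ρ : Matrix (Fin n → Fin (M + 1)) (Fin n → Fin (M + 1)) ℂ) (k : Fin n → ℝ) : Ker n :=
  conV k (n * M) (ext ρ)

/-- energy of mode `j` of the compression -/
def enXj (s : Ker n) (j : Fin n) (X : ℕ) : ℝ := ∑ x : Ct n X, (x.1 j : ℝ) * (s x.1 x.1).re

/-- energy of mode `j` of a finite matrix -/
def en0j (ρ : Matrix (Fin n → Fin (M + 1)) (Fin n → Fin (M + 1)) ℂ) (j : Fin n) : ℝ :=
  ∑ x, ((x j : ℕ) : ℝ) * (ρ x x).re

/-- with all gains equal, the vector version is the scalar one -/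
theorem ccV_const (k : ℝ) (m l : Conf n) : ccV (fun _ => k) m l = P369A.cc k m l := rfl

theorem ampV_const (k : ℝ) (s : Conf n → Conf n → ℂ) : ampV (fun _ => k) s = P369A.ampE k s := rfl

theorem conV_const (k : ℝ) (Y : ℕ) (s : Conf n → Conf n → ℂ) :
    conV (fun _ => k) Y s = P369A.conE k Y s := rfl

theorem JwV_const (k : ℝ) (Γ L Y : ℕ) : JwV (n := n) (fun _ => k) Γ L Y = P369A.Jw k Γ L Y := rfl

theorem CkV_const (ρ : Matrix (Fin n → Fin (M + 1)) (Fin n → Fin (M + 1)) ℂ) (k : ℝ) :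
    CkV ρ (fun _ => k) = P369A.Ck ρ k := rfl

theorem DkV_const (ρ : Matrix (Fin n → Fin (M + 1)) (Fin n → Fin (M + 1)) ℂ) (k : ℝ) :
    DkV ρ (fun _ => k) = P369A.Dk ρ k := rfl

end

end Vale.Agent.P369W
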