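import Vale.Agent.P369.H973.Box

set_option linter.all false

/-!
P369 (helper400): variational inequality for a box compression (piece [T2a]).
-/

namespace Vale.Agent.P369W

open Matrix MeasureTheory Set
open scoped ComplexOrder
open Vale.Agent.P369 (Conf up down)
open Vale.Agent.P369V (Cf cv ann)
open Vale.Agent.P369A (Ct cut cutR annR incl incl_isometry incl_mul_incl)
open Vale.Agent.P369Z (boxm)

noncomputable section

variable {n : ℕ}

theorem up_apply_ite (x : Conf n) (j i : Fin n) : up x j i = x i + if i = j then 1 else 0 := by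
  unfold up
  rw [Function.update_apply]
  split_ifs with h
  · rw [h]
  · rw [add_zero]

theorem cv_sum_le {N : ℕ} (k : Cf n N) : ∑ i, cv k i ≤ n * N := by
  calc ∑ i, cv k i ≤ ∑ _i : Fin n, N := Finset.sum_le_sum fun i _ => Nat.le_of_lt_succ (k i).2
    _ = n * N := by simp

/-- the box `N` inside `|x| ≤ X` -/
def bx {N X : ℕ} (h : n * N ≤ X) (k : Cf n N) : Ct n X := ⟨cv k, (cv_sum_le k).trans h⟩

theorem bx_inj {N X : ℕ} (h : n * N ≤ X) : Function.Injective (bx (n := n) h) := fun k l e => by
  have := congrArg Subtype.val e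
  exact P369V.g1_cv_inj this

theorem boxm_eq {N X : ℕ} (h : n * N ≤ X) (T : P369A.Ker n) :
    (incl (bx (n := n) h))ᴴ * cut X T * incl (bx h) = boxm N T := by
  rw [incl_mul_incl]
  rfl

/-- annihilation of the larger box is annihilation -/
theorem annR_incl {N X : ℕ} (h : n * N ≤ X) (h' : n * N ≤ X + 1) (j : Fin n) :
    annR X j * incl (bx h') = incl (bx h) * ann n N j := by
  ext x l
  rw [mul_apply, Finset.sum_eq_single (bx h' l)]
  · rw [mul_apply]
    have e1 : incl (bx h') (bx h' l) l = (1 : ℂ) := by simp [incl]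
    rw [e1, mul_one]
    unfold annR
    by_cases hx : cv l = up x.1 j
    · have hxl : ∀ i, x.1 i + (if i = j then 1 else 0) = (l i : ℕ) := by
        intro i
        have := congrFun hx i
        rw [up_apply_ite] at this
        exact this.symm
      have hb : ∀ i, x.1 i < N + 1 := fun i => by
        have h1 := hxl i
        have h2 := (l i).2
        omega
      rw [if_pos (by exact hx), Finset.sum_eq_single (fun i => (⟨x.1 i, hb i⟩ : Fin (N + 1)))]
      · have e2 : incl (bx h) x (fun i => (⟨x.1 i, hb i⟩ : Fin (N + 1))) = (1 : ℂ) := by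
          unfold incl
          rw [if_pos]
          exact Subtype.ext rfl
        rw [e2, one_mul]
        unfold ann
        rw [if_pos]
        · rfl
        · intro i
          exact (hxl i).symm
      · intro k _ hk
        have e2 : incl (bx h) x k = (0 : ℂ) := by
          unfold incl
          rw [if_neg]
          intro e
          refine hk (funext fun i => Fin.ext ?_)
          have := congrFun (congrArg Subtype.val e) i
          exact this.symm
        rw [e2, zero_mul]
      · intro h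
        exact absurd (Finset.mem_univ _) h
    · rw [if_neg (by exact hx)]
      symm
      refine Finset.sum_eq_zero fun k _ => ?_
      by_cases hk : x = bx h k
      · unfold ann
        rw [if_neg, mul_zero]
        intro hl
        refine hx (funext fun i => ?_)
        have h1 : x.1 i = (k i : ℕ) := congrFun (congrArg Subtype.val hk) i
        have h2 := hl i
        rw [up_apply_ite, h1]
        exact h2
      · unfold incl
        rw [if_neg hk, zero_mul]
  · intro y _ hy
    unfold incl
    rw [if_neg hy, mul_zero]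
  · intro h
    exact absurd (Finset.mem_univ _) h

/-- rows of the smaller box: annihilation stays in the larger box -/
theorem incH_annR {N X : ℕ} (h : n * (N + 1) ≤ X) (h' : n * (N + 1) ≤ X + 1) (j : Fin n) :
    (incl (bx (n := n) h) * P369V.inc n N)ᴴ * annR X j =
      (P369V.inc n N)ᴴ * ann n (N + 1) j * (incl (bx h'))ᴴ := by
  -- the row `k` of both sides
  have hinc : ∀ {κ : Type} (A : Matrix (Cf n (N + 1)) κ ℂ) (k : Cf n N) (y : κ),
      ((P369V.inc n N)ᴴ * A) k y = A (fun i => (k i).castSucc) y := by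
    intro κ A k y
    rw [mul_apply, Finset.sum_eq_single (fun i => (k i).castSucc)]
    · have e : P369V.inc n N (fun i => (k i).castSucc) k = 1 := if_pos (fun i => rfl)
      rw [conjTranspose_apply, e, star_one, one_mul]
    · intro m _ hm
      have e : P369V.inc n N m k = 0 := by
        unfold P369V.inc
        rw [if_neg]
        intro hh
        exact hm (funext fun i => Fin.ext (hh i))
      rw [conjTranspose_apply, e, star_zero, zero_mul]
    · intro h
      exact absurd (Finset.mem_univ _) h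
  have hbx : ∀ {κ : Type} (A : Matrix (Ct n X) κ ℂ) (k : Cf n (N + 1)) (y : κ),
      ((incl (bx (n := n) h))ᴴ * A) k y = A (bx h k) y := by
    intro κ A k y
    rw [mul_apply, Finset.sum_eq_single (bx h k)]
    · rw [conjTranspose_apply]
      unfold incl
      rw [if_pos rfl, star_one, one_mul]
    · intro m _ hm
      rw [conjTranspose_apply]
      unfold incl
      rw [if_neg hm, star_zero, zero_mul]
    · intro h
      exact absurd (Finset.mem_univ _) h
  ext k y
  rw [conjTranspose_mul, Matrix.mul_assoc, hinc, hbx, Matrix.mul_assoc, hinc]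
  rw [mul_apply]
  unfold annR
  by_cases hx : y.1 = up (cv k) j
  · have hb : ∀ i, y.1 i < N + 1 + 1 := fun i => by
      have h1 := congrFun hx i
      rw [up_apply_ite] at h1
      have h2 := (k i).2
      have h3 : cv k i = (k i : ℕ) := rfl
      split_ifs at h1 <;> omega
    have hx' : y.1 = up ((bx (n := n) h fun i => (k i).castSucc).1) j := hx
    rw [if_pos hx', Finset.sum_eq_single (fun i => (⟨y.1 i, hb i⟩ : Fin (N + 1 + 1)))]
    · rw [conjTranspose_apply]
      have e2 : incl (bx (n := n) h') y (fun i => (⟨y.1 i, hb i⟩ : Fin (N + 1 + 1))) = (1 : ℂ) := by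
        unfold incl
        rw [if_pos]
        exact Subtype.ext rfl
      rw [e2, star_one, mul_one]
      unfold ann
      rw [if_pos]
      intro i
      have h1 := congrFun hx i
      rw [up_apply_ite] at h1
      exact h1
    · intro l _ hl
      rw [conjTranspose_apply]
      unfold incl
      rw [if_neg, star_zero, mul_zero]
      intro e
      refine hl (funext fun i => Fin.ext ?_)
      have := congrFun (congrArg Subtype.val e) i
      exact this.symm
    · intro h
      exact absurd (Finset.mem_univ _) h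
  · have hx' : ¬ y.1 = up ((bx (n := n) h fun i => (k i).castSucc).1) j := hx
    rw [if_neg hx']
    symm
    refine Finset.sum_eq_zero fun l _ => ?_
    rw [conjTranspose_apply]
    by_cases hl : y = bx h' l
    · unfold ann
      rw [if_neg, zero_mul]
      intro hh
      refine hx (funext fun i => ?_)
      rw [up_apply_ite, hl]
      exact hh i
    · unfold incl
      rw [if_neg hl, star_zero, mul_zero]

/-- **[T2a]** the variational inequality for box compressions -/
theorem box_var {T : P369A.Ker n} (hT : ∀ X, (cut X T).PosDef) (N : ℕ) (j : Fin n) {ν : ℝ}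
    (hν : ν ∈ Icc (0 : ℝ) 1) (V : Matrix (Cf n (N + 1)) (Cf n (N + 1)) ℂ)
    (hV : P369V.inc n N * (P369V.inc n N)ᴴ * V = V) :
    2 * ((ann n (N + 1) j * boxm (N + 1) T - boxm (N + 1) T * ann n (N + 1) j)ᴴ * V).trace.re -
      P369V.pen ν (boxm (N + 1) T) V ≤ P369F.FXj ν T (n * (N + 1)) j := by
  have h : n * (N + 1) ≤ n * (N + 1) := le_rfl
  have h' : n * (N + 1) ≤ n * (N + 1) + 1 := Nat.le_succ _
  set X := n * (N + 1) with hX
  set E₁ : Matrix (Ct n X) (Cf n (N + 1)) ℂ := incl (bx h) with hE₁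
  set E₂ : Matrix (Ct n (X + 1)) (Cf n (N + 1)) ℂ := incl (bx h') with hE₂
  set B := boxm (N + 1) T with hB
  set a := ann n (N + 1) j with ha
  have i1 : E₁ᴴ * E₁ = 1 := incl_isometry (bx_inj h)
  have i2 : E₂ᴴ * E₂ = 1 := incl_isometry (bx_inj h')
  have c1 : E₁ᴴ * cut X T * E₁ = B := boxm_eq h T
  have c2 : E₂ᴴ * cut (X + 1) T * E₂ = B := boxm_eq h' T
  refine le_trans (le_of_eq ?_) (P369A.two_re_sub_pen_le hν (hT X) (hT (X + 1))
    (annR X j * cut (X + 1) T - cut X T * annR X j) (E₁ * V * E₂ᴴ))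
  have p1 : (cut (X + 1) T * ((E₁ * V * E₂ᴴ)ᴴ * (E₁ * V * E₂ᴴ))).trace = (B * (Vᴴ * V)).trace := by
    rw [conjTranspose_mul, conjTranspose_mul, conjTranspose_conjTranspose]
    calc (cut (X + 1) T * (E₂ * (Vᴴ * E₁ᴴ) * (E₁ * V * E₂ᴴ))).trace
        = (cut (X + 1) T * E₂ * Vᴴ * (E₁ᴴ * E₁) * V * E₂ᴴ).trace := by
          simp only [Matrix.mul_assoc]
      _ = (cut (X + 1) T * E₂ * Vᴴ * V * E₂ᴴ).trace := by rw [i1, Matrix.mul_one]
      _ = (E₂ᴴ * (cut (X + 1) T * E₂ * Vᴴ * V)).trace := trace_mul_comm _ _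
      _ = ((E₂ᴴ * cut (X + 1) T * E₂) * (Vᴴ * V)).trace := by simp only [Matrix.mul_assoc]
      _ = _ := by rw [c2]
  have p2 : (cut X T * ((E₁ * V * E₂ᴴ) * (E₁ * V * E₂ᴴ)ᴴ)).trace = (B * (V * Vᴴ)).trace := by
    rw [conjTranspose_mul, conjTranspose_mul, conjTranspose_conjTranspose]
    calc (cut X T * (E₁ * V * E₂ᴴ * (E₂ * (Vᴴ * E₁ᴴ)))).trace
        = (cut X T * E₁ * V * (E₂ᴴ * E₂) * Vᴴ * E₁ᴴ).trace := by simp only [Matrix.mul_assoc]
      _ = (cut X T * E₁ * V * Vᴴ * E₁ᴴ).trace := by rw [i2, Matrix.mul_one]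
      _ = (E₁ᴴ * (cut X T * E₁ * V * Vᴴ)).trace := trace_mul_comm _ _
      _ = ((E₁ᴴ * cut X T * E₁) * (V * Vᴴ)).trace := by simp only [Matrix.mul_assoc]
      _ = _ := by rw [c1]
  -- the linear term
  have q1 : ((annR X j * cut (X + 1) T)ᴴ * (E₁ * V * E₂ᴴ)).trace = ((a * B)ᴴ * V).trace := by
    have k1 : (E₁ * P369V.inc n N)ᴴ * annR X j = (P369V.inc n N)ᴴ * a * E₂ᴴ := incH_annR h h' j
    calc ((annR X j * cut (X + 1) T)ᴴ * (E₁ * V * E₂ᴴ)).trace
        = ((annR X j * cut (X + 1) T)ᴴ * (E₁ * (P369V.inc n N * (P369V.inc n N)ᴴ * V) *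
            E₂ᴴ)).trace := by rw [hV]
      _ = ((((annR X j * cut (X + 1) T)ᴴ * (E₁ * P369V.inc n N)) * ((P369V.inc n N)ᴴ * V)) *
            E₂ᴴ).trace := by simp only [Matrix.mul_assoc]
      _ = (E₂ᴴ * (((annR X j * cut (X + 1) T)ᴴ * (E₁ * P369V.inc n N)) *
            ((P369V.inc n N)ᴴ * V))).trace := trace_mul_comm _ _
      _ = (((((E₁ * P369V.inc n N)ᴴ * annR X j) * cut (X + 1) T * E₂)ᴴ) *
            ((P369V.inc n N)ᴴ * V)).trace := by
          simp only [conjTranspose_mul, conjTranspose_conjTranspose, Matrix.mul_assoc]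
      _ = (((((P369V.inc n N)ᴴ * a * E₂ᴴ) * cut (X + 1) T * E₂)ᴴ) *
            ((P369V.inc n N)ᴴ * V)).trace := by rw [k1]
      _ = (((((P369V.inc n N)ᴴ * a) * (E₂ᴴ * cut (X + 1) T * E₂))ᴴ) *
            ((P369V.inc n N)ᴴ * V)).trace := by simp only [Matrix.mul_assoc]
      _ = (((((P369V.inc n N)ᴴ * a) * B)ᴴ) * ((P369V.inc n N)ᴴ * V)).trace := by rw [c2]
      _ = ((a * B)ᴴ * (P369V.inc n N * (P369V.inc n N)ᴴ * V)).trace := by
          simp only [conjTranspose_mul, conjTranspose_conjTranspose, Matrix.mul_assoc]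
      _ = _ := by rw [hV]
  have q2 : ((cut X T * annR X j)ᴴ * (E₁ * V * E₂ᴴ)).trace = ((B * a)ᴴ * V).trace := by
    have k2 : annR X j * E₂ = E₁ * a := annR_incl h h' j
    calc ((cut X T * annR X j)ᴴ * (E₁ * V * E₂ᴴ)).trace
        = ((((cut X T * annR X j)ᴴ * E₁) * V) * E₂ᴴ).trace := by simp only [Matrix.mul_assoc]
      _ = (E₂ᴴ * (((cut X T * annR X j)ᴴ * E₁) * V)).trace := trace_mul_comm _ _
      _ = ((E₁ᴴ * cut X T * (annR X j * E₂))ᴴ * V).trace := by
          simp only [conjTranspose_mul, conjTranspose_conjTranspose, Matrix.mul_assoc]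
      _ = ((E₁ᴴ * cut X T * E₁ * a)ᴴ * V).trace := by rw [k2]; simp only [Matrix.mul_assoc]
      _ = _ := by rw [c1]
  unfold P369V.pen P369A.pen
  rw [p1, p2, conjTranspose_sub, conjTranspose_sub, Matrix.sub_mul, Matrix.sub_mul, trace_sub,
    trace_sub, q1, q2]

end

end Vale.Agent.P369W
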