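import Vale.Agent.P369.H400.VecDefs

set_option linter.all false

section

attribute [-instance] ProperSMul.toContinuousSMul IsTopologicalTorsor.toContinuousSMul IdemSemiring.toCanonicallyOrderedAdd IdemSemiring.toMulLeftMono IdemSemiring.toMulRightMono AddQuantale.instAddLeftMono AddQuantale.instAddRightMono Quantale.instMulLeftMono Quantale.instMulRightMono FiniteDimensional.rclike_to_real IsScalarTower.complexToReal FiniteDimensional.complexToReal

/-!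
P369 (helper400): vector gains, coefficients, sums, the cut isometry and its marginals.
-/

namespace Vale.Agent.P369W

open Matrix Filter Topology
open Vale.Agent.P369 (Conf up down)
open Vale.Agent.P369A
open scoped Kronecker ComplexOrder

noncomputable section

variable {n : ℕ}

theorem ccV_eq (k : Fin n → ℝ) (m l : Conf n) : ccV k m l = ∏ j, c1 (k j) (m j) (l j) := rfl

/-- the product over the other modes -/
def ccrV (k : Fin n → ℝ) (m l : Conf n) (j : Fin n) : ℝ :=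
  ∏ i ∈ Finset.univ.erase j, c1 (k i) (m i) (l i)

theorem ccV_split (k : Fin n → ℝ) (m l : Conf n) (j : Fin n) :
    ccV k m l = c1 (k j) (m j) (l j) * ccrV k m l j :=
  (Finset.mul_prod_erase Finset.univ (fun i => c1 (k i) (m i) (l i)) (Finset.mem_univ j)).symm

theorem ccrV_congr (k : Fin n → ℝ) {m l m' l' : Conf n} (j : Fin n) (h : ∀ i, i ≠ j → m i = m' i)
    (h' : ∀ i, i ≠ j → l i = l' i) : ccrV k m l j = ccrV k m' l' j := by
  unfold ccrV
  apply Finset.prod_congr rfl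
  intro i hi
  rw [h i (Finset.ne_of_mem_erase hi), h' i (Finset.ne_of_mem_erase hi)]

theorem ccV_up_left (k : Fin n → ℝ) (m l : Conf n) (j : Fin n) :
    ccV k (up m j) l = c1 (k j) (m j + 1) (l j) * ccrV k m l j := by
  rw [ccV_split k (up m j) l j, up_self, ccrV_congr k j (fun i hi => lin_up_ne m hi) (fun i _ => rfl)]

theorem ccV_up_right (k : Fin n → ℝ) (m l : Conf n) (j : Fin n) :
    ccV k m (up l j) = c1 (k j) (m j) (l j + 1) * ccrV k m l j := by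
  rw [ccV_split k m (up l j) j, up_self, ccrV_congr k j (fun i _ => rfl) (fun i hi => lin_up_ne l hi)]

theorem ccV_down_left (k : Fin n → ℝ) (m l : Conf n) (j : Fin n) :
    ccV k (down m j) l = c1 (k j) (m j - 1) (l j) * ccrV k m l j := by
  rw [ccV_split k (down m j) l j, down_self,
    ccrV_congr k j (fun i hi => lin_down_ne m hi) (fun i _ => rfl)]

theorem ccV_down_right (k : Fin n → ℝ) (m l : Conf n) (j : Fin n) :
    ccV k m (down l j) = c1 (k j) (m j) (l j - 1) * ccrV k m l j := by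
  rw [ccV_split k m (down l j) j, down_self,
    ccrV_congr k j (fun i _ => rfl) (fun i hi => lin_down_ne l hi)]

theorem ccV_r1 {k : Fin n → ℝ} (hk : ∀ j, 0 < k j) (m l : Conf n) (j : Fin n) :
    Real.sqrt ((m j : ℝ) + l j + 1) * ccV k m l =
      Real.sqrt (k j) * Real.sqrt ((m j : ℝ) + 1) * ccV k (up m j) l := by
  rw [ccV_split k m l j, ccV_up_left]
  have h := c1_r1 (hk j) (m j) (l j)
  linear_combination ccrV k m l j * h

theorem ccV_r2 {k : Fin n → ℝ} (hk : ∀ j, 1 ≤ k j) (m l : Conf n) (j : Fin n) :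
    Real.sqrt ((l j : ℝ) + 1) * ccV k m (up l j) =
      Real.sqrt (k j - 1) * Real.sqrt ((m j : ℝ) + 1) * ccV k (up m j) l := by
  rw [ccV_up_right, ccV_up_left]
  have h := c1_r2 (hk j) (m j) (l j)
  linear_combination ccrV k m l j * h

theorem ccV_r3 {k : Fin n → ℝ} (hk : ∀ j, 1 ≤ k j) (m l : Conf n) (j : Fin n) :
    Real.sqrt (m j : ℝ) * ccV k (down m j) l =
      Real.sqrt (k j) * Real.sqrt ((m j : ℝ) + l j) * ccV k m l -
      Real.sqrt (k j - 1) * Real.sqrt (l j : ℝ) * ccV k m (down l j) := by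
  rw [ccV_split k m l j, ccV_down_left, ccV_down_right]
  have h := c1_r3 (hk j) (m j) (l j)
  linear_combination ccrV k m l j * h

theorem ccV_nonneg (k : Fin n → ℝ) (m l : Conf n) : 0 ≤ ccV k m l := by
  unfold ccV c1
  refine Finset.prod_nonneg fun j _ => ?_
  (clear * -; positivity)

theorem ccV_mul_self {k : Fin n → ℝ} (hk : ∀ j, 1 ≤ k j) (m l : Conf n) :
    ccV k m l * ccV k m l =
      ∏ j, ((1 / k j) ^ (m j + 1) *
        ((((l j + m j).choose (m j) : ℕ) : ℝ) * (1 - 1 / k j) ^ (l j))) := by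
  unfold ccV
  rw [← Finset.prod_mul_distrib]
  refine Finset.prod_congr rfl fun j _ => ?_
  have h := cc_mul_self (n := 1) (hk j) (fun _ => m j) (fun _ => l j)
  simpa only [cc_eq, Finset.univ_unique, Finset.prod_const, Finset.card_singleton, pow_one] using h

theorem sum_ccV_le {k : Fin n → ℝ} (hk : ∀ j, 1 ≤ k j) (m : Conf n) (L : ℕ) :
    ∑ l : Ct n L, ccV k m l.1 * ccV k m l.1 ≤ 1 := by
  refine (sum_Ct_le L (Fintype.piFinset fun _ => Finset.range (L + 1))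
    (fun l => ccV k m l * ccV k m l) ?_ fun l => mul_nonneg (ccV_nonneg _ _ _) (ccV_nonneg _ _ _)).trans ?_
  · intro l hl
    rw [Fintype.mem_piFinset]
    intro j
    rw [Finset.mem_range]
    exact Nat.lt_succ_of_le ((le_sum_conf l j).trans hl)
  · simp only [ccV_mul_self hk]
    rw [← Finset.prod_univ_sum (fun _ : Fin n => Finset.range (L + 1))
      (fun j t => (1 / k j) ^ (m j + 1) * ((((t + m j).choose (m j) : ℕ) : ℝ) * (1 - 1 / k j) ^ t))]
    refine Finset.prod_le_one (fun j _ => Finset.sum_nonneg fun t _ => ?_)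
      fun j _ => sum_negbin_le (hk j) (m j) L
    have h0 : 0 < k j := lt_of_lt_of_le one_pos (hk j)
    have h1 : 0 ≤ 1 - 1 / k j := by
      rw [sub_nonneg, div_le_one h0]
      exact hk j
    (clear * - h0 h1; positivity)

/-! ### the cut isometry is a contraction -/

theorem JwV_gram (k : Fin n → ℝ) (Γ L Y : ℕ) :
    (JwV (n := n) k Γ L Y)ᴴ * JwV (n := n) k Γ L Y =
      diagonal fun m : Ct n Y => ((∑ l : Ct n L, if ∑ j, (m.1 + l.1) j ≤ Γ then
        ccV k m.1 l.1 * ccV k m.1 l.1 else 0 : ℝ) : ℂ) := by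
  ext m m'
  rw [mul_apply, Fintype.sum_prod_type_right, diagonal_apply]
  have h1 : ∀ l : Ct n L, ∑ x : Ct n Γ, (JwV k Γ L Y)ᴴ m (x, l) * JwV k Γ L Y (x, l) m' =
      if m = m' then (if ∑ j, (m.1 + l.1) j ≤ Γ then
        ((ccV k m.1 l.1 * ccV k m.1 l.1 : ℝ) : ℂ) else 0) else 0 := by
    intro l
    have h2 : ∀ x : Ct n Γ, (JwV k Γ L Y)ᴴ m (x, l) * JwV k Γ L Y (x, l) m' =
        if x.1 = m.1 + l.1 then (if m = m' then ((ccV k m.1 l.1 * ccV k m.1 l.1 : ℝ) : ℂ) else 0)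
          else 0 := by
      intro x
      rw [conjTranspose_apply, JwV, JwV]
      dsimp only
      by_cases h3 : x.1 = m.1 + l.1
      · rw [if_pos h3, if_pos h3]
        by_cases h4 : m = m'
        · subst h4
          rw [if_pos h3, if_pos rfl]
          have : star ((ccV k m.1 l.1 : ℝ) : ℂ) = ((ccV k m.1 l.1 : ℝ) : ℂ) := Complex.conj_ofReal _
          rw [this]
          push_cast
          ring
        · rw [if_neg h4, if_neg, mul_zero]
          intro h5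
          exact h4 (Subtype.ext (add_right_cancel (h3.symm.trans h5)))
      · rw [if_neg h3, if_neg h3, star_zero, zero_mul]
    simp only [h2]
    rw [sum_Ct_ite Γ (m.1 + l.1)
      (fun _ => if m = m' then ((ccV k m.1 l.1 * ccV k m.1 l.1 : ℝ) : ℂ) else 0)]
    by_cases h4 : m = m'
    · rw [if_pos h4, if_pos h4]
      by_cases h5 : ∑ j, (m.1 + l.1) j ≤ Γ
      · rw [dif_pos h5, if_pos h5]
      · rw [dif_neg h5, if_neg h5]
    · rw [if_neg h4, if_neg h4]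
      by_cases h5 : ∑ j, (m.1 + l.1) j ≤ Γ
      · rw [dif_pos h5]
      · rw [dif_neg h5]
  simp only [h1]
  by_cases h4 : m = m'
  · simp only [if_pos h4]
    push_cast
    refine Finset.sum_congr rfl fun l _ => ?_
    split_ifs <;> push_cast <;> rfl
  · simp only [if_neg h4, Finset.sum_const_zero]

theorem JwV_contraction {k : Fin n → ℝ} (hk : ∀ j, 1 ≤ k j) (Γ L Y : ℕ) :
    (1 - (JwV (n := n) k Γ L Y)ᴴ * JwV (n := n) k Γ L Y).PosSemidef := by
  rw [JwV_gram, ← diagonal_one, diagonal_sub]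
  refine PosSemidef.diagonal fun m => ?_
  have h1 : (∑ l : Ct n L, if ∑ j, (m.1 + l.1) j ≤ Γ then
        ccV k m.1 l.1 * ccV k m.1 l.1 else 0 : ℝ) ≤ 1 := by
    refine le_trans (Finset.sum_le_sum fun l _ => ?_) (sum_ccV_le hk m.1 L)
    split_ifs
    · exact le_rfl
    · exact mul_nonneg (ccV_nonneg _ _ _) (ccV_nonneg _ _ _)
  show (0 : ℂ) ≤ 1 - _
  rw [sub_nonneg]
  exact_mod_cast h1

/-! ### entries of `J s J†` -/

/-- the entries of `J s J†` without cutoffs -/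
def jjV (k : Fin n → ℝ) (s : Conf n → Conf n → ℂ) (x l x' l' : Conf n) : ℂ :=
  if (∀ j, l j ≤ x j) ∧ (∀ j, l' j ≤ x' j) then ((ccV k (x - l) l * ccV k (x' - l') l' : ℝ) : ℂ) * s (x - l) (x' - l') else 0

theorem JwV_apply_eq (k : Fin n → ℝ) (Γ L Y : ℕ) (xl : Ct n Γ × Ct n L) (m : Ct n Y) :
    JwV k Γ L Y xl m = if m.1 = xl.1.1 - xl.2.1 then
      (if ∀ j, xl.2.1 j ≤ xl.1.1 j then ((ccV k m.1 xl.2.1 : ℝ) : ℂ) else 0) else 0 := by
  unfold JwV
  by_cases h : xl.1.1 = m.1 + xl.2.1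
  · rw [if_pos h, if_pos, if_pos]
    · intro j
      rw [h]
      exact Nat.le_add_left _ _
    · rw [h, add_tsub_cancel_right]
  · rw [if_neg h]
    by_cases h1 : m.1 = xl.1.1 - xl.2.1
    · rw [if_pos h1, if_neg]
      intro h2
      apply h
      rw [h1, tsub_add_cancel_of_le h2]
    · rw [if_neg h1]

/-- `J s J†` with cutoffs -/
def JsJV (k : Fin n → ℝ) (Γ L Y : ℕ) (s : Conf n → Conf n → ℂ) :
    Matrix (Ct n Γ × Ct n L) (Ct n Γ × Ct n L) ℂ :=
  JwV (n := n) k Γ L Y * cut Y s * (JwV (n := n) k Γ L Y)ᴴ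

theorem JwV_conj_apply (k : Fin n → ℝ) (Γ L Y : ℕ) (s : Conf n → Conf n → ℂ) (xl xl' : Ct n Γ × Ct n L) :
    JsJV k Γ L Y s xl xl' =
      if (∑ j, (xl.1.1 - xl.2.1) j ≤ Y) ∧ (∑ j, (xl'.1.1 - xl'.2.1) j ≤ Y) then
        jjV k s xl.1.1 xl.2.1 xl'.1.1 xl'.2.1 else 0 := by
  rw [JsJV, mul_apply]
  have h1 : ∀ m' : Ct n Y, (JwV (n := n) k Γ L Y * cut Y s) xl m' =
      if h : ∑ j, (xl.1.1 - xl.2.1) j ≤ Y then
        (if ∀ j, xl.2.1 j ≤ xl.1.1 j then ((ccV k (xl.1.1 - xl.2.1) xl.2.1 : ℝ) : ℂ) else 0) *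
          s (xl.1.1 - xl.2.1) m'.1 else 0 := by
    intro m'
    rw [mul_apply]
    have h2 : ∀ m : Ct n Y, JwV k Γ L Y xl m * cut Y s m m' = if m.1 = xl.1.1 - xl.2.1 then
        (if ∀ j, xl.2.1 j ≤ xl.1.1 j then ((ccV k m.1 xl.2.1 : ℝ) : ℂ) else 0) * s m.1 m'.1 else 0 := by
      intro m
      rw [JwV_apply_eq]
      by_cases h : m.1 = xl.1.1 - xl.2.1
      · rw [if_pos h, if_pos h]
        rfl
      · rw [if_neg h, if_neg h, zero_mul]
    simp only [h2]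
    rw [sum_Ct_ite Y (xl.1.1 - xl.2.1)
      (fun m => (if ∀ j, xl.2.1 j ≤ xl.1.1 j then ((ccV k m.1 xl.2.1 : ℝ) : ℂ) else 0) * s m.1 m'.1)]
  simp only [h1]
  have h3 : ∀ m' : Ct n Y, (if h : ∑ j, (xl.1.1 - xl.2.1) j ≤ Y then
        (if ∀ j, xl.2.1 j ≤ xl.1.1 j then ((ccV k (xl.1.1 - xl.2.1) xl.2.1 : ℝ) : ℂ) else 0) *
          s (xl.1.1 - xl.2.1) m'.1 else 0) * (JwV (n := n) k Γ L Y)ᴴ m' xl' =
      if m'.1 = xl'.1.1 - xl'.2.1 then (if ∑ j, (xl.1.1 - xl.2.1) j ≤ Y then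
        (if ∀ j, xl.2.1 j ≤ xl.1.1 j then ((ccV k (xl.1.1 - xl.2.1) xl.2.1 : ℝ) : ℂ) else 0) *
          s (xl.1.1 - xl.2.1) m'.1 *
            (if ∀ j, xl'.2.1 j ≤ xl'.1.1 j then ((ccV k m'.1 xl'.2.1 : ℝ) : ℂ) else 0) else 0) else 0 := by
    intro m'
    rw [conjTranspose_apply, JwV_apply_eq]
    by_cases h : m'.1 = xl'.1.1 - xl'.2.1
    · rw [if_pos h, if_pos h]
      by_cases h5 : ∑ j, (xl.1.1 - xl.2.1) j ≤ Y
      · rw [dif_pos h5, if_pos h5]
        congr 1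
        split_ifs
        · exact Complex.conj_ofReal _
        · exact star_zero _
      · rw [dif_neg h5, if_neg h5, zero_mul]
    · rw [if_neg h, if_neg h, star_zero, mul_zero]
  simp only [h3]
  rw [sum_Ct_ite Y (xl'.1.1 - xl'.2.1) (fun m' => (if ∑ j, (xl.1.1 - xl.2.1) j ≤ Y then
        (if ∀ j, xl.2.1 j ≤ xl.1.1 j then ((ccV k (xl.1.1 - xl.2.1) xl.2.1 : ℝ) : ℂ) else 0) *
          s (xl.1.1 - xl.2.1) m'.1 *
            (if ∀ j, xl'.2.1 j ≤ xl'.1.1 j then ((ccV k m'.1 xl'.2.1 : ℝ) : ℂ) else 0) else 0))]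
  unfold jjV
  by_cases h5 : ∑ j, (xl.1.1 - xl.2.1) j ≤ Y
  · by_cases h6 : ∑ j, (xl'.1.1 - xl'.2.1) j ≤ Y
    · have h56 : (∑ j, (xl.1.1 - xl.2.1) j ≤ Y) ∧ (∑ j, (xl'.1.1 - xl'.2.1) j ≤ Y) := ⟨h5, h6⟩
      rw [dif_pos h6, if_pos h5, if_pos h56]
      by_cases h7 : ∀ j, xl.2.1 j ≤ xl.1.1 j
      · by_cases h8 : ∀ j, xl'.2.1 j ≤ xl'.1.1 j
        · have h78 : (∀ j, xl.2.1 j ≤ xl.1.1 j) ∧ (∀ j, xl'.2.1 j ≤ xl'.1.1 j) := ⟨h7, h8⟩
          rw [if_pos h7, if_pos h8, if_pos h78]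
          push_cast
          ring
        · have h78 : ¬((∀ j, xl.2.1 j ≤ xl.1.1 j) ∧ (∀ j, xl'.2.1 j ≤ xl'.1.1 j)) :=
            fun h => h8 h.2
          rw [if_neg h8, if_neg h78, mul_zero]
      · have h78 : ¬((∀ j, xl.2.1 j ≤ xl.1.1 j) ∧ (∀ j, xl'.2.1 j ≤ xl'.1.1 j)) :=
          fun h => h7 h.1
        rw [if_neg h7, if_neg h78, zero_mul, zero_mul]
    · have h56 : ¬((∑ j, (xl.1.1 - xl.2.1) j ≤ Y) ∧ (∑ j, (xl'.1.1 - xl'.2.1) j ≤ Y)) :=
        fun h => h6 h.2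
      rw [dif_neg h6, if_neg h56]
  · have h56 : ¬((∑ j, (xl.1.1 - xl.2.1) j ≤ Y) ∧ (∑ j, (xl'.1.1 - xl'.2.1) j ≤ Y)) :=
      fun h => h5 h.1
    rw [if_neg h56]
    by_cases h6 : ∑ j, (xl'.1.1 - xl'.2.1) j ≤ Y
    · rw [dif_pos h6, if_neg h5]
    · rw [dif_neg h6]

/-- the first marginal is the cut of the amplifier channel -/
theorem mar₁_JwV (k : Fin n → ℝ) {Γ L Y : ℕ} (s : Conf n → Conf n → ℂ) (x x' : Ct n Γ)
    (hL : ∑ j, x.1 j ≤ L) (hY : ∑ j, x.1 j ≤ Y) (hY' : ∑ j, x'.1 j ≤ Y) :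
    mar₁ (JsJV k Γ L Y s) x x' = ampV k s x.1 x'.1 := by
  unfold mar₁ ampV
  simp only [JwV_conj_apply]
  rw [sum_Ct_eq L (Finset.Iic (x.1 ⊓ x'.1)) (fun l => if (∑ j, (x.1 - l) j ≤ Y) ∧
    (∑ j, (x'.1 - l) j ≤ Y) then jjV k s x.1 l x'.1 l else 0)]
  · refine Finset.sum_congr rfl fun l hl => ?_
    rw [Finset.mem_Iic, le_inf_iff] at hl
    have h1 : (∑ j, (x.1 - l) j ≤ Y) ∧ (∑ j, (x'.1 - l) j ≤ Y) :=
      ⟨(sum_conf_mono tsub_le_self).trans hY, (sum_conf_mono tsub_le_self).trans hY'⟩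
    have h2 : (∀ j, l j ≤ x.1 j) ∧ (∀ j, l j ≤ x'.1 j) := hl
    rw [if_pos h1, jjV, if_pos h2]
  · intro l hl
    rw [Finset.mem_Iic, le_inf_iff] at hl
    exact (sum_conf_mono hl.1).trans hL
  · intro l hl
    rw [Finset.mem_Iic, le_inf_iff] at hl
    have h2 : ¬((∀ j, l j ≤ x.1 j) ∧ (∀ j, l j ≤ x'.1 j)) := hl
    split_ifs
    · rw [jjV, if_neg h2]
    · rfl

/-- the second marginal is the complementary channel -/
theorem mar₂_JwV (k : Fin n → ℝ) {Γ L Y : ℕ} (s : Conf n → Conf n → ℂ) (l l' : Ct n L)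
    (hΓ : Y + ∑ j, l.1 j ≤ Γ) :
    mar₂ (JsJV k Γ L Y s) l l' = conV k Y s l.1 l'.1 := by
  unfold mar₂ conV
  have h1 : ∀ x : Ct n Γ, JsJV k Γ L Y s (x, l) (x, l') =
      ∑ m : Ct n Y, ∑ m' : Ct n Y, if x.1 = m.1 + l.1 then (if m.1 + l.1 = m'.1 + l'.1 then
        ((ccV k m.1 l.1 * ccV k m'.1 l'.1 : ℝ) : ℂ) * s m.1 m'.1 else 0) else 0 := by
    intro x
    rw [JsJV, mul_apply, Finset.sum_comm]
    refine Finset.sum_congr rfl fun m' _ => ?_
    rw [mul_apply, Finset.sum_mul]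
    refine Finset.sum_congr rfl fun m _ => ?_
    rw [conjTranspose_apply, JwV, JwV]
    dsimp only
    by_cases h2 : x.1 = m.1 + l.1
    · rw [if_pos h2, if_pos h2]
      by_cases h3 : x.1 = m'.1 + l'.1
      · rw [if_pos h3, if_pos (h2.symm.trans h3)]
        have : star ((ccV k m'.1 l'.1 : ℝ) : ℂ) = ((ccV k m'.1 l'.1 : ℝ) : ℂ) :=
          Complex.conj_ofReal _
        rw [this, cut]
        push_cast
        ring
      · rw [if_neg h3, if_neg fun h => h3 (h2.trans h), star_zero, mul_zero]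
    · rw [if_neg h2, if_neg h2, zero_mul, zero_mul]
  simp only [h1]
  rw [Finset.sum_comm]
  refine Finset.sum_congr rfl fun m _ => ?_
  rw [Finset.sum_comm]
  refine Finset.sum_congr rfl fun m' _ => ?_
  rw [sum_Ct_ite Γ (m.1 + l.1) (fun _ => if m.1 + l.1 = m'.1 + l'.1 then
        ((ccV k m.1 l.1 * ccV k m'.1 l'.1 : ℝ) : ℂ) * s m.1 m'.1 else 0), dif_pos]
  rw [sum_conf_add]
  exact (Nat.add_le_add_right m.2 _).trans hΓ


end

end Vale.Agent.P369W

end
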