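import Vale.Agent.P369.H400.VecA

set_option linter.all false

section

attribute [-instance] ProperSMul.toContinuousSMul IsTopologicalTorsor.toContinuousSMul IdemSemiring.toCanonicallyOrderedAdd IdemSemiring.toMulLeftMono IdemSemiring.toMulRightMono AddQuantale.instAddLeftMono AddQuantale.instAddRightMono Quantale.instMulLeftMono Quantale.instMulRightMono FiniteDimensional.rclike_to_real IsScalarTower.complexToReal FiniteDimensional.complexToReal

/-!
P369 (helper400): vector gains: traces, energies (per mode and total), positive definiteness, F5.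
-/

namespace Vale.Agent.P369W

open Matrix Filter Topology MeasureTheory Set
open Vale.Agent.P369 (Conf up down)
open Vale.Agent.P369A
open Vale.Agent.P369V (ent EigB eta b_ent_eq ment_eq eigB_matrix)
open scoped Kronecker ComplexOrder Nat InnerProductSpace

noncomputable section

variable {n : ℕ}

theorem ccV_sq {k : Fin n → ℝ} (hk : ∀ j, 1 ≤ k j) (m l : Conf n) :
    ccV k m l ^ 2 = ∏ j, nb (k j) (m j) (l j) := by
  unfold ccV
  rw [← Finset.prod_pow]
  refine Finset.prod_congr rfl fun j _ => ?_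
  have h := cc_sq (n := 1) (hk j) (fun _ => m j) (fun _ => l j)
  simpa only [cc_eq, Finset.univ_unique, Finset.prod_const, Finset.card_singleton, pow_one] using h

theorem hasSum_ccV_sq {k : Fin n → ℝ} (hk : ∀ j, 1 ≤ k j) (m : Conf n) :
    HasSum (fun l => ccV k m l ^ 2) 1 := by
  have h := hasSum_pi (n := n) (F := fun j => nb (k j) (m j)) (a := fun _ => 1)
    (fun j => hasSum_nb (hk j) (m j))
  simp only [Finset.prod_const_one] at h
  exact h.congr_fun fun l => ccV_sq hk m l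

/-- the mean photon number of the environment in mode `i` -/
theorem hasSum_mul_ccV_sq_j {k : Fin n → ℝ} (hk : ∀ j, 1 ≤ k j) (m : Conf n) (i : Fin n) :
    HasSum (fun l : Conf n => (l i : ℝ) * ccV k m l ^ 2) ((k i - 1) * ((m i : ℝ) + 1)) := by
  have h1 : ∀ j : Fin n, HasSum (fun l : ℕ => (if j = i then (l : ℝ) else 1) * nb (k j) (m j) l)
      (if j = i then (k j - 1) * ((m j : ℝ) + 1) else 1) := by
    intro j
    by_cases hj : j = i
    · subst hj
      simpa only [↓reduceIte] using hasSum_mul_nb (hk j) (m j)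
    · simp only [hj, if_false, one_mul]
      exact hasSum_nb (hk j) (m j)
  have h2 := hasSum_pi h1
  rw [Finset.prod_ite_eq' Finset.univ i] at h2
  simp only [Finset.mem_univ, if_true] at h2
  refine h2.congr_fun fun l => ?_
  rw [ccV_sq hk, Finset.prod_mul_distrib, Finset.prod_ite_eq' Finset.univ i]
  simp only [Finset.mem_univ, ↓reduceIte]

variable {M : ℕ} {ρ : Matrix (Fin n → Fin (M + 1)) (Fin n → Fin (M + 1)) ℂ}

theorem CkV_diag {k : Fin n → ℝ} (x : Conf n) :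
    (CkV ρ k x x).re = ∑ l ∈ Finset.Iic x, (ext ρ (x - l) (x - l)).re * ccV k (x - l) l ^ 2 := by
  unfold CkV ampV
  rw [inf_idem, Complex.re_sum]
  refine Finset.sum_congr rfl fun l _ => ?_
  rw [Complex.re_ofReal_mul]
  ring

theorem DkV_diag {k : Fin n → ℝ} (l : Conf n) :
    (DkV ρ k l l).re = ∑ c, (ρ c c).re * ccV k (te c) l ^ 2 := by
  unfold DkV conV
  have h1 : ∀ m : Ct n (n * M), (∑ m' : Ct n (n * M), if m.1 + l = m'.1 + l then
      ((ccV k m.1 l * ccV k m'.1 l : ℝ) : ℂ) * ext ρ m.1 m'.1 else 0) =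
      ((ccV k m.1 l * ccV k m.1 l : ℝ) : ℂ) * ext ρ m.1 m.1 := by
    intro m
    rw [Finset.sum_eq_single m]
    · rw [if_pos rfl]
    · intro m' _ hm'
      rw [if_neg]
      intro h
      exact hm' (Subtype.ext (add_right_cancel h)).symm
    · intro h'
      exact absurd (Finset.mem_univ _) h'
  rw [Finset.sum_congr rfl fun m _ => h1 m, Complex.re_sum]
  have h2 : ∀ m : Ct n (n * M), (((ccV k m.1 l * ccV k m.1 l : ℝ) : ℂ) * ext ρ m.1 m.1).re =
      ∑ c, if m.1 = te c then (ρ c c).re * ccV k (te c) l ^ 2 else 0 := by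
    intro m
    rw [← ext_diag (fun m => ccV k m l ^ 2), Complex.re_ofReal_mul]
    ring
  rw [Finset.sum_congr rfl fun m _ => h2 m, Finset.sum_comm]
  refine Finset.sum_congr rfl fun c _ => ?_
  rw [Finset.sum_eq_single ⟨te c, te_le c⟩]
  · rw [if_pos rfl]
  · intro m _ hm
    rw [if_neg]
    intro h
    exact hm (Subtype.ext h)
  · intro h'
    exact absurd (Finset.mem_univ _) h'

theorem tendsto_trX_CkV (ht : ρ.trace = 1) {k : Fin n → ℝ} (hk : ∀ j, 1 ≤ k j) :
    Tendsto (trX (CkV ρ k)) atTop (𝓝 1) := by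
  have h := hasSum_fiber (hasSum_ext_pair (ρ := ρ) (G := fun m l => ccV k m l ^ 2) (a := fun _ => 1)
    fun c => hasSum_ccV_sq hk (te c))
  simp only [mul_one, sum_rho ht] at h
  refine (cs_tendsto_sum_Ct h).congr fun X => ?_
  unfold trX
  exact Finset.sum_congr rfl fun x _ => (CkV_diag x.1).symm

theorem tendsto_trX_DkV (ht : ρ.trace = 1) {k : Fin n → ℝ} (hk : ∀ j, 1 ≤ k j) :
    Tendsto (trX (DkV ρ k)) atTop (𝓝 1) := by
  have h : HasSum (fun l : Conf n => ∑ c, (ρ c c).re * ccV k (te c) l ^ 2) (∑ c, (ρ c c).re * 1) :=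
    hasSum_sum fun c _ => (hasSum_ccV_sq hk (te c)).mul_left _
  simp only [mul_one, sum_rho ht] at h
  refine (cs_tendsto_sum_Ct h).congr fun X => ?_
  unfold trX
  exact Finset.sum_congr rfl fun x _ => (DkV_diag x.1).symm

/-- energy of mode `i` of the amplified state -/
theorem tendsto_enXj_CkV (ht : ρ.trace = 1) {k : Fin n → ℝ} (hk : ∀ j, 1 ≤ k j) (i : Fin n) :
    Tendsto (enXj (CkV ρ k) i) atTop (𝓝 (k i * en0j ρ i + (k i - 1))) := by
  have h := hasSum_fiber (hasSum_ext_pair (ρ := ρ)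
    (G := fun m l => (m i : ℝ) * ccV k m l ^ 2 + (l i : ℝ) * ccV k m l ^ 2)
    (a := fun c => (te c i : ℝ) * 1 + (k i - 1) * ((te c i : ℝ) + 1))
    fun c => ((hasSum_ccV_sq hk (te c)).mul_left _).add (hasSum_mul_ccV_sq_j hk (te c) i))
  have e : ∑ c, (ρ c c).re * ((te c i : ℝ) * 1 + (k i - 1) * ((te c i : ℝ) + 1)) =
      k i * en0j ρ i + (k i - 1) := by
    have e1 : ∀ c, (ρ c c).re * ((te c i : ℝ) * 1 + (k i - 1) * ((te c i : ℝ) + 1)) =
        k i * ((te c i : ℝ) * (ρ c c).re) + (k i - 1) * (ρ c c).re := fun c => by ring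
    rw [Finset.sum_congr rfl fun c _ => e1 c, Finset.sum_add_distrib, ← Finset.mul_sum,
      ← Finset.mul_sum, sum_rho ht, mul_one]
    rfl
  rw [e] at h
  refine (cs_tendsto_sum_Ct h).congr fun X => ?_
  unfold enXj
  refine Finset.sum_congr rfl fun x _ => ?_
  rw [CkV_diag x.1, Finset.mul_sum]
  refine Finset.sum_congr rfl fun l hl => ?_
  have hl' : l ≤ x.1 := Finset.mem_Iic.1 hl
  have e2 : (x.1 i : ℝ) = (((x.1 - l) i : ℕ) : ℝ) + (l i : ℝ) := by
    rw [Pi.sub_apply, Nat.cast_sub (hl' i)]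
    ring
  rw [e2]
  ring

/-- energy of mode `i` of the environment -/
theorem tendsto_enXj_DkV (ht : ρ.trace = 1) {k : Fin n → ℝ} (hk : ∀ j, 1 ≤ k j) (i : Fin n) :
    Tendsto (enXj (DkV ρ k) i) atTop (𝓝 ((k i - 1) * (en0j ρ i + 1))) := by
  have h : HasSum (fun l : Conf n => ∑ c, (ρ c c).re * ((l i : ℝ) * ccV k (te c) l ^ 2))
      (∑ c, (ρ c c).re * ((k i - 1) * ((te c i : ℝ) + 1))) :=
    hasSum_sum fun c _ => (hasSum_mul_ccV_sq_j hk (te c) i).mul_left _
  have e : ∑ c, (ρ c c).re * ((k i - 1) * ((te c i : ℝ) + 1)) = (k i - 1) * (en0j ρ i + 1) := by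
    have e1 : ∀ c, (ρ c c).re * ((k i - 1) * ((te c i : ℝ) + 1)) =
        (k i - 1) * ((te c i : ℝ) * (ρ c c).re) + (k i - 1) * (ρ c c).re :=
      fun c => by ring
    rw [Finset.sum_congr rfl fun c _ => e1 c, Finset.sum_add_distrib, ← Finset.mul_sum,
      ← Finset.mul_sum, sum_rho ht, mul_one, mul_add, mul_one]
    rfl
  rw [e] at h
  refine (cs_tendsto_sum_Ct h).congr fun X => ?_
  unfold enXj
  refine Finset.sum_congr rfl fun x _ => ?_
  rw [DkV_diag x.1, Finset.mul_sum]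
  exact Finset.sum_congr rfl fun c _ => by ring

theorem enX_eq_sum (s : Ker n) (X : ℕ) : enX s X = ∑ j, enXj s j X := by
  unfold enX enXj
  rw [Finset.sum_comm]
  exact Finset.sum_congr rfl fun x _ => Finset.sum_mul _ _ _

theorem en0_eq_sum : en0 ρ = ∑ j, en0j ρ j := by
  unfold en0 en0j
  rw [Finset.sum_comm]
  exact Finset.sum_congr rfl fun x _ => Finset.sum_mul _ _ _

theorem tendsto_enX_CkV (ht : ρ.trace = 1) {k : Fin n → ℝ} (hk : ∀ j, 1 ≤ k j) :
    Tendsto (enX (CkV ρ k)) atTop (𝓝 (∑ j, (k j * en0j ρ j + (k j - 1)))) :=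
  (tendsto_finsetSum _ fun j _ => tendsto_enXj_CkV ht hk j).congr fun X => (enX_eq_sum _ X).symm

theorem tendsto_enX_DkV (ht : ρ.trace = 1) {k : Fin n → ℝ} (hk : ∀ j, 1 ≤ k j) :
    Tendsto (enX (DkV ρ k)) atTop (𝓝 (∑ j, (k j - 1) * (en0j ρ j + 1))) :=
  (tendsto_finsetSum _ fun j _ => tendsto_enXj_DkV ht hk j).congr fun X => (enX_eq_sum _ X).symm

/-! ### positive definiteness -/

theorem ccV_zero_pos {k : Fin n → ℝ} (hk : ∀ j, 1 < k j) (l : Conf n) : 0 < ccV k 0 l := by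
  unfold ccV
  refine Finset.prod_pos fun j _ => ?_
  have h := cc_zero_pos (n := 1) (hk j) (fun _ => l j)
  simpa only [cc_eq, Finset.univ_unique, Finset.prod_const, Finset.card_singleton, pow_one,
    Pi.zero_apply] using h

theorem JwV_single (k : Fin n → ℝ) (Γ L Y : ℕ) (xl xl' : Ct n Γ × Ct n L) :
    (JwV (n := n) k Γ L Y * Matrix.single (c0 n Y) (c0 n Y) (1 : ℂ) *
      (JwV (n := n) k Γ L Y)ᴴ) xl xl' =
      (if xl.1.1 = xl.2.1 then ((ccV k 0 xl.2.1 : ℝ) : ℂ) else 0) *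
      (if xl'.1.1 = xl'.2.1 then ((ccV k 0 xl'.2.1 : ℝ) : ℂ) else 0) := by
  rw [Matrix.mul_apply, Finset.sum_eq_single (c0 n Y)]
  · rw [Matrix.mul_single_apply_same, Matrix.conjTranspose_apply]
    simp only [JwV, c0, zero_add, mul_one]
    congr 1
    split_ifs
    · exact Complex.conj_ofReal _
    · exact star_zero _
  · intro m _ hm
    rw [Matrix.mul_single_apply_of_ne _ _ _ _ _ hm, zero_mul]
  · intro h
    exact absurd (Finset.mem_univ _) h

theorem posDef_mar₁ {k : Fin n → ℝ} (hk : ∀ j, 1 < k j) {X : ℕ} {A : Matrix (Ct n X) (Ct n X) ℂ} {c : ℝ}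
    (hc : 0 < c) (hA : (A - (c : ℂ) • Matrix.single (c0 n X) (c0 n X) (1 : ℂ)).PosSemidef) :
    (mar₁ (JwV (n := n) k X X X * A * (JwV (n := n) k X X X)ᴴ)).PosDef := by
  set S : Matrix (Ct n X) (Ct n X) ℂ := Matrix.single (c0 n X) (c0 n X) (1 : ℂ) with hS
  have h1 : JwV (n := n) k X X X * A * (JwV (n := n) k X X X)ᴴ =
      JwV (n := n) k X X X * (A - (c : ℂ) • S) * (JwV (n := n) k X X X)ᴴ +
      (c : ℂ) • (JwV (n := n) k X X X * S * (JwV (n := n) k X X X)ᴴ) := by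
    rw [Matrix.mul_sub, Matrix.sub_mul, Matrix.mul_smul, Matrix.smul_mul]
    abel
  rw [h1, pos_mar₁_add]
  have h2 : mar₁ (JwV (n := n) k X X X * S * (JwV (n := n) k X X X)ᴴ) =
      Matrix.diagonal (fun x : Ct n X => ((ccV k 0 x.1 * ccV k 0 x.1 : ℝ) : ℂ)) := by
    ext x y
    simp only [mar₁, hS, JwV_single]
    rw [Finset.sum_eq_single x]
    · by_cases hxy : x = y
      · subst hxy
        simp only [↓reduceIte, Complex.ofReal_mul, diagonal_apply_eq]
      · have hne : ¬ y.1 = x.1 := fun h => hxy (Subtype.ext h.symm)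
        simp only [↓reduceIte, hne, mul_zero, Complex.ofReal_mul, ne_eq, hxy, not_false_eq_true, diagonal_apply_ne]
    · intro l _ hl
      have : ¬ x.1 = l.1 := fun h => hl (Subtype.ext h.symm)
      simp only [this, ↓reduceIte, mul_ite, zero_mul, mul_zero, ite_self]
    · intro h
      exact absurd (Finset.mem_univ _) h
  rw [h2]
  apply Matrix.PosDef.posSemidef_add
  · exact pos_mar₁ (hA.mul_mul_conjTranspose_same _)
  · apply Matrix.PosDef.smul _ (show (0 : ℂ) < (c : ℂ) by exact_mod_cast hc)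
    apply Matrix.PosDef.diagonal
    intro x
    have := ccV_zero_pos hk x.1
    exact_mod_cast mul_pos this this

theorem posDef_mar₂ {k : Fin n → ℝ} (hk : ∀ j, 1 < k j) {Y X : ℕ} {A : Matrix (Ct n Y) (Ct n Y) ℂ} {c : ℝ}
    (hc : 0 < c) (hA : (A - (c : ℂ) • Matrix.single (c0 n Y) (c0 n Y) (1 : ℂ)).PosSemidef) :
    (mar₂ (JwV (n := n) k (Y + X) X Y * A * (JwV (n := n) k (Y + X) X Y)ᴴ)).PosDef := by
  set S : Matrix (Ct n Y) (Ct n Y) ℂ := Matrix.single (c0 n Y) (c0 n Y) (1 : ℂ) with hS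
  have h1 : JwV (n := n) k (Y + X) X Y * A * (JwV (n := n) k (Y + X) X Y)ᴴ =
      JwV (n := n) k (Y + X) X Y * (A - (c : ℂ) • S) * (JwV (n := n) k (Y + X) X Y)ᴴ +
      (c : ℂ) • (JwV (n := n) k (Y + X) X Y * S * (JwV (n := n) k (Y + X) X Y)ᴴ) := by
    rw [Matrix.mul_sub, Matrix.sub_mul, Matrix.mul_smul, Matrix.smul_mul]
    abel
  rw [h1, pos_mar₂_add]
  have h2 : mar₂ (JwV (n := n) k (Y + X) X Y * S * (JwV (n := n) k (Y + X) X Y)ᴴ) =
      Matrix.diagonal (fun x : Ct n X => ((ccV k 0 x.1 * ccV k 0 x.1 : ℝ) : ℂ)) := by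
    ext l l'
    simp only [mar₂, hS, JwV_single]
    rw [Finset.sum_eq_single (⟨l.1, l.2.trans (Nat.le_add_left _ _)⟩ : Ct n (Y + X))]
    · by_cases hxy : l = l'
      · subst hxy
        simp only [↓reduceIte, Complex.ofReal_mul, diagonal_apply_eq]
      · have hne : ¬ l.1 = l'.1 := fun h => hxy (Subtype.ext h)
        simp only [↓reduceIte, hne, mul_zero, Complex.ofReal_mul, ne_eq, hxy, not_false_eq_true, diagonal_apply_ne]
    · intro x _ hx
      have : ¬ x.1 = l.1 := fun h => hx (Subtype.ext h)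
      simp only [this, ↓reduceIte, mul_ite, zero_mul, mul_zero, ite_self]
    · intro h
      exact absurd (Finset.mem_univ _) h
  rw [h2]
  apply Matrix.PosDef.posSemidef_add
  · exact pos_mar₂ (hA.mul_mul_conjTranspose_same _)
  · apply Matrix.PosDef.smul _ (show (0 : ℂ) < (c : ℂ) by exact_mod_cast hc)
    apply Matrix.PosDef.diagonal
    intro x
    have := ccV_zero_pos hk x.1
    exact_mod_cast mul_pos this this

theorem cut_ampV_eq (k : Fin n → ℝ) (X : ℕ) (s : Conf n → Conf n → ℂ) :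
    cut X (ampV k s) = mar₁ (JwV (n := n) k X X X * cut X s * (JwV (n := n) k X X X)ᴴ) := by
  ext x y
  exact (mar₁_JwV k s x y x.2 x.2 y.2).symm

theorem cut_conV_eq (k : Fin n → ℝ) (Y X : ℕ) (s : Conf n → Conf n → ℂ) :
    cut X (conV k Y s) =
      mar₂ (JwV (n := n) k (Y + X) X Y * cut Y s * (JwV (n := n) k (Y + X) X Y)ᴴ) := by
  ext l l'
  exact (mar₂_JwV k s l l' (Nat.add_le_add_left l.2 _)).symm

theorem posDef_CkV (hρ : ρ.PosDef) {k : Fin n → ℝ} (hk : ∀ j, 1 < k j) (X : ℕ) : (cut X (CkV ρ k)).PosDef := by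
  obtain ⟨c, hc, hA⟩ := exists_cut_ext hρ
  unfold CkV
  rw [cut_ampV_eq]
  exact posDef_mar₁ hk hc (hA X)

theorem posDef_DkV (hρ : ρ.PosDef) {k : Fin n → ℝ} (hk : ∀ j, 1 < k j) (X : ℕ) : (cut X (DkV ρ k)).PosDef := by
  obtain ⟨c, hc, hA⟩ := exists_cut_ext hρ
  unfold DkV
  rw [cut_conV_eq]
  exact posDef_mar₂ hk hc (hA _)

/-- F1 -/
theorem reg_CkV (hρ : ρ.PosDef) (ht : ρ.trace = 1) {k : Fin n → ℝ} (hk : ∀ j, 1 < k j) :
    Reg (CkV ρ k) (∑ j, (k j * en0j ρ j + (k j - 1))) :=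
  ⟨posDef_CkV hρ hk, tendsto_trX_CkV ht fun j => (hk j).le, tendsto_enX_CkV ht fun j => (hk j).le⟩

theorem reg_DkV (hρ : ρ.PosDef) (ht : ρ.trace = 1) {k : Fin n → ℝ} (hk : ∀ j, 1 < k j) :
    Reg (DkV ρ k) (∑ j, (k j - 1) * (en0j ρ j + 1)) :=
  ⟨posDef_DkV hρ hk, tendsto_trX_DkV ht fun j => (hk j).le, tendsto_enX_DkV ht fun j => (hk j).le⟩

/-! ### F5 -/

/-- the complementary channel of the amplifier is completely co-positive -/
theorem choiG_JwV {k : Fin n → ℝ} {Γ L Y : ℕ} (h : Y + L ≤ Γ) :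
    (choiG (JwV (n := n) k Γ L Y)).PosSemidef := by
  set B : ℕ := Y + L with hB
  set Ψ : Matrix (Ct n Y × Ct n L) (Fin n → Fin (2 * B + 1) × Fin (B + 1)) ℂ := fun x τ =>
    ∏ j, ((vsc1 (k j) (x.1.1 j) (x.2.1 j) * vps B (τ j) (x.1.1 j) (x.2.1 j) : ℝ) : ℂ) with hΨ
  have hle : ∀ (X : ℕ) (x : Ct n X) (j : Fin n), x.1 j ≤ X := fun X x j =>
    (Finset.single_le_sum (f := fun i => x.1 i) (fun _ _ => Nat.zero_le _)
      (Finset.mem_univ j)).trans x.2
  have key : choiG (JwV (n := n) k Γ L Y) = Ψ * Ψᴴ := by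
    ext x y
    have hR : (Ψ * Ψᴴ) x y = ∏ j, (if y.1.1 j + x.2.1 j = x.1.1 j + y.2.1 j then
        ((vsc1 (k j) (x.1.1 j) (x.2.1 j) * vsc1 (k j) (y.1.1 j) (y.2.1 j) *
          ((x.1.1 j + y.2.1 j)! : ℝ) : ℝ) : ℂ) else 0) := by
      rw [Matrix.mul_apply]
      have e1 : ∀ τ : Fin n → Fin (2 * B + 1) × Fin (B + 1), Ψ x τ * Ψᴴ τ y =
          ∏ j, (((vsc1 (k j) (x.1.1 j) (x.2.1 j) * vsc1 (k j) (y.1.1 j) (y.2.1 j)) *
            (vps B (τ j) (x.1.1 j) (x.2.1 j) * vps B (τ j) (y.1.1 j) (y.2.1 j)) : ℝ) : ℂ) := by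
        intro τ
        rw [Matrix.conjTranspose_apply]
        simp only [hΨ]
        rw [star_prod, ← Finset.prod_mul_distrib]
        refine Finset.prod_congr rfl fun j _ => ?_
        rw [Complex.star_def, Complex.conj_ofReal, ← Complex.ofReal_mul]
        congr 1
        ring
      simp only [e1]
      rw [P369V.d1_sum (fun j (t : Fin (2 * B + 1) × Fin (B + 1)) =>
        (((vsc1 (k j) (x.1.1 j) (x.2.1 j) * vsc1 (k j) (y.1.1 j) (y.2.1 j)) *
            (vps B t (x.1.1 j) (x.2.1 j) * vps B t (y.1.1 j) (y.2.1 j)) : ℝ) : ℂ))]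
      refine Finset.prod_congr rfl fun j _ => ?_
      rw [← Complex.ofReal_sum, ← Finset.mul_sum, vps_sum ((hle _ x.1 j).trans (by omega))
        ((hle _ x.2 j).trans (by omega)) ((hle _ y.1 j).trans (by omega))
        ((hle _ y.2 j).trans (by omega))]
      split_ifs with h1
      · rfl
      · simp only [mul_zero, Complex.ofReal_zero]
    rw [hR]
    by_cases hxy : y.1.1 + x.2.1 = x.1.1 + y.2.1
    · have hc : ∑ j, (y.1.1 + x.2.1) j ≤ Γ := by
        have h1 := y.1.2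
        have h2 := x.2.2
        simp only [Pi.add_apply, Finset.sum_add_distrib]
        omega
      rw [choiG, Finset.sum_eq_single ⟨y.1.1 + x.2.1, hc⟩]
      · rw [JwV, JwV, if_pos rfl, if_pos hxy, Complex.star_def, Complex.conj_ofReal,
          ← Complex.ofReal_mul, ccV, ccV, ← Finset.prod_mul_distrib, Complex.ofReal_prod]
        refine Finset.prod_congr rfl fun j _ => ?_
        have hj : y.1.1 j + x.2.1 j = x.1.1 j + y.2.1 j := congrFun hxy j
        rw [if_pos hj]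
        congr 1
        exact cc_mul (k j) hj
      · intro c _ hc'
        have : ¬ c.1 = y.1.1 + x.2.1 := by
          intro h'
          exact hc' (Subtype.ext h')
        rw [JwV, if_neg this, star_zero, zero_mul]
      · intro h'
        exact absurd (Finset.mem_univ _) h'
    · have hz : choiG (JwV (n := n) k Γ L Y) x y = 0 := by
        rw [choiG]
        refine Finset.sum_eq_zero fun c _ => ?_
        by_cases h1 : c.1 = y.1.1 + x.2.1
        · have h2 : ¬ c.1 = x.1.1 + y.2.1 := by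
            intro h'
            exact hxy (h1.symm.trans h')
          have : JwV (n := n) k Γ L Y (c, y.2) x.1 = 0 := by rw [JwV, if_neg h2]
          rw [this, mul_zero]
        · rw [JwV, if_neg h1, star_zero, zero_mul]
      rw [hz]
      obtain ⟨j, hj⟩ := Function.ne_iff.1 hxy
      symm
      refine Finset.prod_eq_zero (Finset.mem_univ j) ?_
      exact if_neg hj
  rw [key]
  exact Matrix.posSemidef_self_mul_conjTranspose _

/-- for `ext ρ` the cutoff of the base plays no role -/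
theorem f5_JsJV {k : Fin n → ℝ} {Γ L Y : ℕ} (hY : n * M ≤ Y) (xl xl' : Ct n Γ × Ct n L) :
    JsJV k Γ L Y (ext ρ) xl xl' = jjV k (ext ρ) xl.1.1 xl.2.1 xl'.1.1 xl'.2.1 := by
  rw [JwV_conj_apply]
  split_ifs with h
  · rfl
  · rw [not_and_or] at h
    unfold jjV
    rcases h with h | h
    · rw [f5_ext_eq_zero (by omega), mul_zero, ite_self]
    · rw [f5_ext_eq_zero' (by omega), mul_zero, ite_self]

theorem f5_mar₁_le (hρ : ρ.PosSemidef) (k : Fin n → ℝ) (L : ℕ) :
    (cut (n * M + L) (CkV ρ k) - mar₁ (JsJV k (n * M + L) L (n * M) (ext ρ))).PosSemidef := by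
  set Γ := n * M + L with hΓ
  have hLΓ : L ≤ Γ := by omega
  have hpsd : (JsJV (n := n) k Γ Γ Γ (ext ρ)).PosSemidef := by
    unfold JsJV
    exact (f5_cut_ext_psd hρ Γ).mul_mul_conjTranspose_same _
  have key : cut Γ (CkV ρ k) - mar₁ (JsJV k Γ L (n * M) (ext ρ)) =
      ∑ l : Ct n Γ, if ∑ j, l.1 j ≤ L then (0 : Matrix (Ct n Γ) (Ct n Γ) ℂ) else
        (JsJV (n := n) k Γ Γ Γ (ext ρ)).submatrix (fun x => (x, l)) (fun x => (x, l)) := by
    ext x x'
    rw [Matrix.sub_apply, Matrix.sum_apply]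
    have h1 : cut Γ (CkV ρ k) x x' = ∑ l : Ct n Γ, jjV k (ext ρ) x.1 l.1 x'.1 l.1 := by
      have := mar₁_JwV k (Γ := Γ) (L := Γ) (Y := Γ) (ext ρ) x x' x.2 x.2 x'.2
      unfold cut CkV
      rw [← this]
      unfold mar₁
      refine Finset.sum_congr rfl fun l _ => ?_
      rw [f5_JsJV (by omega)]
    have h2 : mar₁ (JsJV k Γ L (n * M) (ext ρ)) x x' =
        ∑ l : Ct n Γ, if ∑ j, l.1 j ≤ L then jjV k (ext ρ) x.1 l.1 x'.1 l.1 else 0 := by
      unfold mar₁
      simp only [f5_JsJV (le_refl (n * M))]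
      have h3 : ∑ l : Ct n L, jjV k (ext ρ) x.1 l.1 x'.1 l.1 =
          ∑ l : Ct n L, (fun l : Conf n => if ∑ j, l j ≤ L then
            jjV k (ext ρ) x.1 l x'.1 l else 0) l.1 :=
        Finset.sum_congr rfl fun l _ => by
          dsimp only
          rw [if_pos l.2]
      rw [h3]
      have h4 : ∑ l : Ct n L, (fun l : Conf n => if ∑ j, l j ≤ L then
            jjV k (ext ρ) x.1 l x'.1 l else 0) l.1 =
          ∑ l ∈ (Finset.univ : Finset (Ct n L)).map ⟨inj hLΓ, inj_injective hLΓ⟩,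
            (fun l : Conf n => if ∑ j, l j ≤ L then
            jjV k (ext ρ) x.1 l x'.1 l else 0) l.1 := by
        rw [Finset.sum_map]
        rfl
      rw [h4]
      refine Finset.sum_subset (Finset.subset_univ _) fun l _ hl => ?_
      dsimp only
      rw [if_neg]
      intro h5
      apply hl
      rw [Finset.mem_map]
      exact ⟨⟨l.1, h5⟩, Finset.mem_univ _, rfl⟩
    rw [h1, h2, ← Finset.sum_sub_distrib]
    refine Finset.sum_congr rfl fun l _ => ?_
    by_cases h5 : ∑ j, l.1 j ≤ L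
    · rw [if_pos h5, if_pos h5, sub_self]
      rfl
    · rw [if_neg h5, if_neg h5, sub_zero, Matrix.submatrix_apply, f5_JsJV (by omega)]
  rw [key]
  refine Matrix.posSemidef_sum _ fun l _ => ?_
  split_ifs
  · exact Matrix.PosSemidef.zero
  · exact hpsd.submatrix _

theorem f5_mar₂ (k : Fin n → ℝ) (L : ℕ) :
    mar₂ (JsJV k (n * M + L) L (n * M) (ext ρ)) = cut L (DkV ρ k) := by
  ext l l'
  rw [mar₂_JwV k (ext ρ) l l' (Nat.add_le_add_left l.2 _)]
  rfl

/-- F5 at finite cutoffs -/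
theorem ent_cut_DkV_le (hρ : ρ.PosSemidef) (k : Fin n → ℝ) (L : ℕ) (hC : (cut (n * M + L) (CkV ρ k)).PosDef)
    (ht : trX (CkV ρ k) (n * M + L) ≤ 1) :
    ent (cut L (DkV ρ k)) ≤ ent (cut (n * M + L) (CkV ρ k)) +
      (trX (CkV ρ k) (n * M + L) - trX (DkV ρ k) L) := by
  set Γ := n * M + L with hΓ
  have h1 : ent (pt2 (JsJV k Γ L (n * M) (ext ρ))) ≤ ent (pt1 (JsJV k Γ L (n * M) (ext ρ))) :=
    ent_out_le (choiG_JwV le_rfl) (f5_cut_ext_psd hρ (n * M))
  have h2 : pt2 (JsJV k Γ L (n * M) (ext ρ)) = cut L (DkV ρ k) := f5_mar₂ k L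
  have hT : (JsJV k Γ L (n * M) (ext ρ)).PosSemidef :=
    (f5_cut_ext_psd hρ (n * M)).mul_mul_conjTranspose_same _
  have h3 : (mar₁ (JsJV k Γ L (n * M) (ext ρ))).PosSemidef := by
    have e : mar₁ (JsJV k Γ L (n * M) (ext ρ)) = ∑ l : Ct n L,
        (JsJV k Γ L (n * M) (ext ρ)).submatrix (fun x => (x, l)) (fun x => (x, l)) := by
      ext x x'
      rw [Matrix.sum_apply]
      rfl
    rw [e]
    exact Matrix.posSemidef_sum _ fun l _ => hT.submatrix _
  have h4 := ent_le_of_le h3 hC (f5_mar₁_le hρ k L) (by rw [← trX_eq]; exact ht)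
  rw [f5_trace, f5_mar₂, ← trX_eq, ← trX_eq] at h4
  rw [h2] at h1
  exact h1.trans h4

/-- F5 from the entropy limits of the two families -/
theorem Sl_DkV_le_of (hρ : ρ.PosSemidef) {k : Fin n → ℝ} (hp : ∀ X, (cut X (CkV ρ k)).PosDef)
    (ht : ∀ X, trX (CkV ρ k) X ≤ 1) (htD : Tendsto (trX (DkV ρ k)) atTop (𝓝 1))
    (hC : ∀ X, ent (cut X (CkV ρ k)) ≤ Sl (CkV ρ k) + (1 - trX (CkV ρ k) X))
    (hD : Tendsto (fun X => ent (cut X (DkV ρ k))) atTop (𝓝 (Sl (DkV ρ k)))) :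
    Sl (DkV ρ k) ≤ Sl (CkV ρ k) := by
  have h1 : ∀ L, ent (cut L (DkV ρ k)) ≤ Sl (CkV ρ k) + (1 - trX (DkV ρ k) L) := by
    intro L
    have h2 := ent_cut_DkV_le hρ k L (hp _) (ht _)
    have h3 := hC (n * M + L)
    (clear * - h2 h3; linarith)
  have h4 : Tendsto (fun L => Sl (CkV ρ k) + (1 - trX (DkV ρ k) L)) atTop (𝓝 (Sl (CkV ρ k))) := by
    have := (tendsto_const_nhds (x := (1 : ℝ))).sub htD
    have := (tendsto_const_nhds (x := Sl (CkV ρ k))).add this
    simpa only [sub_self, add_zero] using this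
  exact le_of_tendsto_of_tendsto' hD h4 h1

/-- F5 for regular families -/
theorem Sl_DkV_le_reg (hρ : ρ.PosSemidef) {k : Fin n → ℝ} {E E' : ℝ} (hC : Reg (CkV ρ k) E)
    (hD : Reg (DkV ρ k) E') : Sl (DkV ρ k) ≤ Sl (CkV ρ k) :=
  Sl_DkV_le_of hρ hC.pos hC.trX_le' hD.tr (ent_limit hC.psd' hC.trX_le' hC.enX_le').2.2
    (ent_limit hD.psd' hD.trX_le' hD.enX_le').1


end

end Vale.Agent.P369W

end
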