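import Vale.Agent.P369.H400.VecB

set_option linter.all false

section

attribute [-instance] ProperSMul.toContinuousSMul IsTopologicalTorsor.toContinuousSMul IdemSemiring.toCanonicallyOrderedAdd IdemSemiring.toMulLeftMono IdemSemiring.toMulRightMono AddQuantale.instAddLeftMono AddQuantale.instAddRightMono Quantale.instMulLeftMono Quantale.instMulRightMono FiniteDimensional.rclike_to_real IsScalarTower.complexToReal FiniteDimensional.complexToReal

/-!
P369 (helper400): vector gains: composition of amplifiers, of the complementary channel with an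
amplifier, and the families `CkV`, `DkV`.
-/

namespace Vale.Agent.P369W

open Matrix Filter Topology MeasureTheory Set
open Vale.Agent.P369 (Conf up down)
open Vale.Agent.P369A
open Vale.Agent.P369V (ent)
open scoped Kronecker ComplexOrder

noncomputable section

variable {n : ℕ}

theorem hasSum_ccV {k k0 : Fin n → ℝ} (hk : ∀ j, 1 ≤ k j) (hk0 : ∀ j, 1 ≤ k0 j)
    {u u' l l' : Conf n} (h : u + l = u' + l') :
    HasSum (fun i : Conf n => ccV k (u + i) l * ccV k (u' + i) l' * (ccV k0 u i * ccV k0 u' i))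
      (ccV (fun j => 1 + (k j - 1) * k0 j) u l * ccV (fun j => 1 + (k j - 1) * k0 j) u' l') := by
  have h1 := hasSum_pi_prod (n := n)
    (F := fun j i => c1 (k j) (u j + i) (l j) * c1 (k j) (u' j + i) (l' j) *
      (c1 (k0 j) (u j) i * c1 (k0 j) (u' j) i))
    (a := fun j => c1 (1 + (k j - 1) * k0 j) (u j) (l j) * c1 (1 + (k j - 1) * k0 j) (u' j) (l' j))
    (fun j => hasSum_c1 (hk j) (hk0 j) (congrFun h j))
  have e1 : (fun b : Fin n → ℕ => ∏ j, (c1 (k j) (u j + b j) (l j) * c1 (k j) (u' j + b j) (l' j) *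
      (c1 (k0 j) (u j) (b j) * c1 (k0 j) (u' j) (b j)))) =
      fun i : Conf n => ccV k (u + i) l * ccV k (u' + i) l' * (ccV k0 u i * ccV k0 u' i) := by
    funext b
    simp only [Finset.prod_mul_distrib, ccV_eq, Pi.add_apply]
  have e2 : (∏ j, (c1 (1 + (k j - 1) * k0 j) (u j) (l j) *
      c1 (1 + (k j - 1) * k0 j) (u' j) (l' j))) =
      ccV (fun j => 1 + (k j - 1) * k0 j) u l * ccV (fun j => 1 + (k j - 1) * k0 j) u' l' := by
    simp only [Finset.prod_mul_distrib, ccV_eq]
  rw [e2] at h1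
  rw [← e1]
  exact h1

theorem sum_ccV {k k0 : Fin n → ℝ} (hk : ∀ j, 1 ≤ k j) (hk0 : ∀ j, 1 ≤ k0 j)
    (u u' p : Conf n) :
    ∑ i ∈ Finset.Iic p, ccV k (u + i) (p - i) * ccV k (u' + i) (p - i) *
      (ccV k0 u i * ccV k0 u' i) =
      ccV (fun j => k j * k0 j) u p * ccV (fun j => k j * k0 j) u' p := by
  have e2 : ccV (fun j => k j * k0 j) u p * ccV (fun j => k j * k0 j) u' p =
      ∏ j, (c1 (k j * k0 j) (u j) (p j) * c1 (k j * k0 j) (u' j) (p j)) := by
    simp only [Finset.prod_mul_distrib, ccV_eq]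
  rw [e2]
  have e3 : ∀ j, c1 (k j * k0 j) (u j) (p j) * c1 (k j * k0 j) (u' j) (p j) =
      ∑ i ∈ Finset.Iic (p j), c1 (k j) (u j + i) (p j - i) * c1 (k j) (u' j + i) (p j - i) *
        (c1 (k0 j) (u j) i * c1 (k0 j) (u' j) i) := by
    intro j
    rw [← sum_c1 (hk j) (hk0 j), Nat.range_succ_eq_Iic]
  simp only [e3]
  rw [Finset.prod_univ_sum]
  apply Finset.sum_congr rfl
  intro i _
  simp only [Finset.prod_mul_distrib, ccV_eq, Pi.add_apply, Pi.sub_apply]

/-- semigroup property of the amplifier -/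
theorem ampV_ampV {k k0 : Fin n → ℝ} (hk : ∀ j, 1 ≤ k j) (hk0 : ∀ j, 1 ≤ k0 j) (s : Conf n → Conf n → ℂ) :
    ampV k (ampV k0 s) = ampV (fun j => k j * k0 j) s := by
  funext x y
  have hR : ampV (fun j => k j * k0 j) s x y = ∑ p ∈ Finset.Iic (x ⊓ y), ∑ i ∈ Finset.Iic p,
      (((ccV k (x - p + i) (p - i) * ccV k (y - p + i) (p - i) *
        (ccV k0 (x - p) i * ccV k0 (y - p) i) : ℝ)) : ℂ) * s (x - p) (y - p) := by
    unfold ampV
    apply Finset.sum_congr rfl
    intro p _
    rw [← sum_ccV hk hk0, Complex.ofReal_sum, Finset.sum_mul]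
  have hL : ampV k (ampV k0 s) x y = ∑ l ∈ Finset.Iic (x ⊓ y),
      ∑ i ∈ Finset.Iic ((x - l) ⊓ (y - l)),
      (((ccV k (x - l) l * ccV k (y - l) l *
        (ccV k0 (x - l - i) i * ccV k0 (y - l - i) i) : ℝ)) : ℂ) * s (x - l - i) (y - l - i) := by
    unfold ampV
    apply Finset.sum_congr rfl
    intro l _
    rw [Finset.mul_sum]
    apply Finset.sum_congr rfl
    intro i _
    push_cast
    ring
  rw [hR, hL, Finset.sum_sigma', Finset.sum_sigma']
  refine Finset.sum_bij' (fun a _ => (⟨a.1 + a.2, a.2⟩ : (_ : Conf n) × Conf n))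
    (fun a _ => (⟨a.1 - a.2, a.2⟩ : (_ : Conf n) × Conf n)) ?_ ?_ ?_ ?_ ?_
  · rintro ⟨l, i⟩ h
    simp only [Finset.mem_sigma, Finset.mem_Iic, le_inf_iff] at h ⊢
    obtain ⟨⟨h1, h2⟩, h3, h4⟩ := h
    refine ⟨⟨fun j => ?_, fun j => ?_⟩, fun j => ?_⟩
    · have a1 : l j ≤ x j := h1 j
      have a2 : i j ≤ x j - l j := h3 j
      simp only [Pi.add_apply]
      omega
    · have a1 : l j ≤ y j := h2 j
      have a2 : i j ≤ y j - l j := h4 j
      simp only [Pi.add_apply]
      omega
    · simp only [Pi.add_apply]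
      omega
  · rintro ⟨p, i⟩ h
    simp only [Finset.mem_sigma, Finset.mem_Iic, le_inf_iff] at h ⊢
    obtain ⟨⟨h1, h2⟩, h3⟩ := h
    refine ⟨⟨fun j => ?_, fun j => ?_⟩, fun j => ?_, fun j => ?_⟩
    all_goals
      have a1 : p j ≤ x j := h1 j
      have a2 : p j ≤ y j := h2 j
      have a3 : i j ≤ p j := h3 j
      simp only [Pi.sub_apply]
      omega
  · rintro ⟨l, i⟩ _
    have : l + i - i = l := by
      funext j
      simp only [Pi.sub_apply, Pi.add_apply, add_tsub_cancel_right]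
    simp only [this]
  · rintro ⟨p, i⟩ h
    simp only [Finset.mem_sigma, Finset.mem_Iic, le_inf_iff] at h
    have : p - i + i = p := by
      funext j
      have a3 : i j ≤ p j := h.2 j
      simp only [Pi.add_apply, Pi.sub_apply]
      omega
    simp only [this]
  · rintro ⟨l, i⟩ h
    simp only [Finset.mem_sigma, Finset.mem_Iic, le_inf_iff] at h
    obtain ⟨⟨h1, h2⟩, h3, h4⟩ := h
    have e1 : x - l - i = x - (l + i) := by
      funext j
      simp only [Pi.sub_apply, Pi.add_apply]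
      omega
    have e2 : y - l - i = y - (l + i) := by
      funext j
      simp only [Pi.sub_apply, Pi.add_apply]
      omega
    have e3 : x - (l + i) + i = x - l := by
      funext j
      have a1 : l j ≤ x j := h1 j
      have a2 : i j ≤ x j - l j := h3 j
      simp only [Pi.sub_apply, Pi.add_apply]
      omega
    have e4 : y - (l + i) + i = y - l := by
      funext j
      have a1 : l j ≤ y j := h2 j
      have a2 : i j ≤ y j - l j := h4 j
      simp only [Pi.sub_apply, Pi.add_apply]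
      omega
    have e5 : l + i - i = l := by
      funext j
      simp only [Pi.sub_apply, Pi.add_apply, add_tsub_cancel_right]
    simp only [e1, e2, e3, e4, e5]

def E1V (k : Fin n → ℝ) (a b : Conf n) : Conf n → Conf n → ℂ := fun m' m =>
  if (∀ j, m' j ≤ a j) ∧ (∀ j, m j ≤ b j) ∧ b - m = a - m' then
    ((ccV k m (b - m) * ccV k m' (a - m') : ℝ) : ℂ) else 0

theorem E1V_eq (k : Fin n → ℝ) (a b m' m : Conf n) :
    E1V k a b m' m = if (∀ j, m j ≤ b j) ∧ m' + (b - m) = a then
      ((ccV k m (b - m) * ccV k m' (b - m) : ℝ) : ℂ) else 0 := by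
  unfold E1V
  by_cases h : (∀ j, m j ≤ b j) ∧ m' + (b - m) = a
  · have h1 : ∀ j, m' j ≤ a j := by
      intro j
      rw [← h.2]
      simp only [Pi.add_apply, Pi.sub_apply, le_add_iff_nonneg_right, zero_le]
    have h2 : b - m = a - m' := by
      rw [← h.2]
      funext j
      simp only [Pi.sub_apply, Pi.add_apply, add_tsub_cancel_left]
    rw [if_pos h, if_pos ⟨h1, h.1, h2⟩, ← h2]
  · rw [if_neg h, if_neg]
    intro h1
    apply h
    refine ⟨h1.2.1, ?_⟩
    rw [h1.2.2]
    funext j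
    have := h1.1 j
    simp only [Pi.add_apply, Pi.sub_apply]
    omega

/-- `ampV` as a sum over `y ≤ b` -/
theorem tau_E1V (k : Fin n → ℝ) (Y : ℕ) (s : Conf n → Conf n → ℂ) (a b : Conf n) (ha : ∑ j, a j ≤ Y)
    (hb : ∑ j, b j ≤ Y) : tau Y s (E1V k a b) = ampV k s b a := by
  classical
  have hle : ∀ (l c : Conf n), ∑ j, (c - l) j ≤ ∑ j, c j := fun l c =>
    Finset.sum_le_sum fun i _ => Nat.sub_le _ _
  unfold tau ampV
  rw [← Finset.sum_product']
  symm
  apply Finset.sum_bij_ne_zero (fun (l : Conf n) _ _ =>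
    ((⟨a - l, (hle l a).trans ha⟩, ⟨b - l, (hle l b).trans hb⟩) : Ct n Y × Ct n Y))
  · intro l _ _
    exact Finset.mem_product.2 ⟨Finset.mem_univ _, Finset.mem_univ _⟩
  · intro l hl _ l' hl' _ h
    rw [Finset.mem_Iic, le_inf_iff] at hl hl'
    have h1 : a - l = a - l' := congrArg (fun p : Ct n Y × Ct n Y => p.1.1) h
    funext j
    have h2 := congrFun h1 j
    have h3 : l j ≤ a j := hl.2 j
    have h4 : l' j ≤ a j := hl'.2 j
    simp only [Pi.sub_apply] at h2
    omega
  · rintro ⟨x, y⟩ _ hxy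
    have h0 : E1V k a b x.1 y.1 ≠ 0 := fun h => hxy (by simp only [h, mul_zero])
    rw [E1V_eq] at h0
    by_cases h : (∀ j, y.1 j ≤ b j) ∧ x.1 + (b - y.1) = a
    · have hla : b - y.1 ≤ a := by
        rw [← h.2]
        intro j
        simp only [Pi.sub_apply, Pi.add_apply, le_add_iff_nonneg_left, zero_le]
      have hlb : b - y.1 ≤ b := fun j => Nat.sub_le _ _
      have e1 : a - (b - y.1) = x.1 := by
        rw [← h.2]
        funext j
        simp only [Pi.sub_apply, Pi.add_apply, add_tsub_cancel_right]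
      have e2 : b - (b - y.1) = y.1 := by
        funext j
        have := h.1 j
        simp only [Pi.sub_apply]
        omega
      refine ⟨b - y.1, ?_, ?_, ?_⟩
      · rw [Finset.mem_Iic, le_inf_iff]
        exact ⟨hlb, hla⟩
      · rw [e1, e2]
        rw [if_pos h] at h0
        intro h2
        apply hxy
        simp only
        rw [E1V_eq, if_pos h]
        rw [mul_comm]
        exact h2
      · exact Prod.ext (Subtype.ext e1) (Subtype.ext e2)
    · rw [if_neg h] at h0
      exact absurd rfl h0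
  · intro l hl _
    rw [Finset.mem_Iic, le_inf_iff] at hl
    simp only
    have e0 : b - (b - l) = l := by
      funext j
      have : l j ≤ b j := hl.1 j
      simp only [Pi.sub_apply]
      (clear * - this; omega)
    have e1 : (∀ j, (b - l) j ≤ b j) ∧ (a - l) + (b - (b - l)) = a := by
      refine ⟨fun j => Nat.sub_le _ _, ?_⟩
      rw [e0]
      funext j
      have : l j ≤ a j := hl.2 j
      simp only [Pi.sub_apply, Pi.add_apply]
      omega
    rw [E1V_eq, if_pos e1, e0]
    ring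

/-- `H_Y(x,y)` -/
theorem sum_T1_E1V {k k0 : Fin n → ℝ} (Y : ℕ) (x y l l' : Conf n) :
    (∑ m : Ct n Y, ∑ m' : Ct n Y, if m.1 + l = m'.1 + l' then
      ((ccV k m.1 l * ccV k m'.1 l' : ℝ) : ℂ) * E1V k0 m'.1 m.1 x y else 0) =
    if y + l = x + l' then ∑ i ∈ Fs Y x y,
      ((ccV k (y + i) l * ccV k (x + i) l' * (ccV k0 y i * ccV k0 x i) : ℝ) : ℂ) else 0 := by
  classical
  by_cases h : y + l = x + l'
  · rw [if_pos h, ← Finset.sum_product']
    symm
    apply Finset.sum_bij_ne_zero (fun (i : Conf n) hi _ =>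
      ((⟨y + i, (mem_Fs.1 hi).2⟩, ⟨x + i, (mem_Fs.1 hi).1⟩) : Ct n Y × Ct n Y))
    · intro i _ _
      exact Finset.mem_product.2 ⟨Finset.mem_univ _, Finset.mem_univ _⟩
    · intro i _ _ i' _ _ h2
      have h3 : y + i = y + i' := congrArg (fun p : Ct n Y × Ct n Y => p.1.1) h2
      exact add_left_cancel h3
    · rintro ⟨m, m'⟩ _ hm
      by_cases c1 : m.1 + l = m'.1 + l'
      · rw [if_pos c1] at hm
        have h0 : E1V k0 m'.1 m.1 x y ≠ 0 := fun h => hm (by simp only [Complex.ofReal_mul, h, mul_zero])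
        rw [E1V_eq] at h0
        by_cases c2 : (∀ j, y j ≤ m.1 j) ∧ x + (m.1 - y) = m'.1
        · have e2 : y + (m.1 - y) = m.1 := by
            funext j
            have := c2.1 j
            simp only [Pi.sub_apply, Pi.add_apply]
            (clear * - this; omega)
          have hi : m.1 - y ∈ Fs Y x y := by
            rw [mem_Fs, c2.2, e2]
            exact ⟨m'.2, m.2⟩
          refine ⟨m.1 - y, hi, ?_, Prod.ext (Subtype.ext e2) (Subtype.ext c2.2)⟩
          rw [e2, c2.2]
          rw [E1V_eq, if_pos c2] at hm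
          intro h3
          apply hm
          rw [← Complex.ofReal_mul]
          exact h3
        · rw [if_neg c2] at h0
          exact absurd rfl h0
      · rw [if_neg c1] at hm
        exact absurd rfl hm
    · intro i hi _
      have c1 : y + i + l = x + i + l' := by
        calc y + i + l = (y + l) + i := by abel
          _ = (x + l') + i := by rw [h]
          _ = _ := by abel
      simp only
      rw [if_pos c1]
      have e0 : y + i - y = i := by
        funext j
        simp only [Pi.sub_apply, Pi.add_apply, add_tsub_cancel_left]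
      have c2 : (∀ j, y j ≤ (y + i) j) ∧ x + (y + i - y) = x + i := by
        refine ⟨fun j => by simp only [Pi.add_apply, le_add_iff_nonneg_right, zero_le], by rw [e0]⟩
      rw [E1V_eq, if_pos c2, e0]
      push_cast
      ring
  · rw [if_neg h]
    apply Finset.sum_eq_zero
    intro m _
    apply Finset.sum_eq_zero
    intro m' _
    by_cases c1 : m.1 + l = m'.1 + l'
    · rw [if_pos c1]
      rw [E1V_eq]
      by_cases c2 : (∀ j, y j ≤ m.1 j) ∧ x + (m.1 - y) = m'.1
      · exfalso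
        apply h
        have e2 : y + (m.1 - y) = m.1 := by
          funext j
          have := c2.1 j
          simp only [Pi.sub_apply, Pi.add_apply]
          omega
        have : (m.1 - y) + (y + l) = (m.1 - y) + (x + l') := by
          calc (m.1 - y) + (y + l) = (y + (m.1 - y)) + l := by
                rw [← add_assoc, add_comm (m.1 - y) y]
            _ = m.1 + l := by rw [e2]
            _ = m'.1 + l' := c1
            _ = (x + (m.1 - y)) + l' := by rw [c2.2]
            _ = _ := by rw [add_comm x (m.1 - y), add_assoc]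
        exact add_left_cancel this
      · rw [if_neg c2, mul_zero]
    · rw [if_neg c1]

theorem conV_ampV (k k0 : Fin n → ℝ) (Y : ℕ) (s : Conf n → Conf n → ℂ) (l l' : Conf n) :
    conV k Y (ampV k0 s) l l' = ∑ x : Ct n Y, ∑ y : Ct n Y, s y.1 x.1 *
      (if y.1 + l = x.1 + l' then ∑ i ∈ Fs Y x.1 y.1,
      ((ccV k (y.1 + i) l * ccV k (x.1 + i) l' * (ccV k0 y.1 i * ccV k0 x.1 i) : ℝ) : ℂ) else 0) := by
  simp only [← sum_T1_E1V]
  unfold conV
  have h1 : ∀ m m' : Ct n Y, (if m.1 + l = m'.1 + l' then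
      ((ccV k m.1 l * ccV k m'.1 l' : ℝ) : ℂ) * ampV k0 s m.1 m'.1 else 0) =
      ∑ x : Ct n Y, ∑ y : Ct n Y, s y.1 x.1 * (if m.1 + l = m'.1 + l' then
        ((ccV k m.1 l * ccV k m'.1 l' : ℝ) : ℂ) * E1V k0 m'.1 m.1 x.1 y.1 else 0) := by
    intro m m'
    rw [← tau_E1V k0 Y s m'.1 m.1 m'.2 m.2]
    by_cases c : m.1 + l = m'.1 + l'
    · simp only [if_pos c]
      unfold tau
      rw [Finset.mul_sum]
      apply Finset.sum_congr rfl
      intro x _
      rw [Finset.mul_sum]
      apply Finset.sum_congr rfl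
      intro y _
      ring
    · simp only [c, ↓reduceIte, mul_zero, Finset.sum_const_zero]
  simp only [h1]
  calc ∑ m : Ct n Y, ∑ m' : Ct n Y, ∑ x : Ct n Y, ∑ y : Ct n Y, s y.1 x.1 *
        (if m.1 + l = m'.1 + l' then
        ((ccV k m.1 l * ccV k m'.1 l' : ℝ) : ℂ) * E1V k0 m'.1 m.1 x.1 y.1 else 0)
      = ∑ m : Ct n Y, ∑ x : Ct n Y, ∑ y : Ct n Y, ∑ m' : Ct n Y, s y.1 x.1 *
        (if m.1 + l = m'.1 + l' then
        ((ccV k m.1 l * ccV k m'.1 l' : ℝ) : ℂ) * E1V k0 m'.1 m.1 x.1 y.1 else 0) := by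
        apply Finset.sum_congr rfl
        intro m _
        rw [Finset.sum_comm]
        apply Finset.sum_congr rfl
        intro x _
        rw [Finset.sum_comm]
    _ = ∑ x : Ct n Y, ∑ y : Ct n Y, ∑ m : Ct n Y, ∑ m' : Ct n Y, s y.1 x.1 *
        (if m.1 + l = m'.1 + l' then
        ((ccV k m.1 l * ccV k m'.1 l' : ℝ) : ℂ) * E1V k0 m'.1 m.1 x.1 y.1 else 0) := by
        rw [Finset.sum_comm]
        apply Finset.sum_congr rfl
        intro x _
        rw [Finset.sum_comm]
    _ = _ := by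
        apply Finset.sum_congr rfl
        intro x _
        apply Finset.sum_congr rfl
        intro y _
        rw [Finset.mul_sum]
        apply Finset.sum_congr rfl
        intro m _
        rw [Finset.mul_sum]

/-- the complementary channel of the composition -/
theorem tendsto_conV_ampV {k k0 : Fin n → ℝ} (hk : ∀ j, 1 ≤ k j) (hk0 : ∀ j, 1 ≤ k0 j) {Y0 : ℕ}
    {s : Conf n → Conf n → ℂ} (hs : Supp Y0 s) (l l' : Conf n) :
    Tendsto (fun Y => conV k Y (ampV k0 s) l l') atTop
      (𝓝 (conV (fun j => 1 + (k j - 1) * k0 j) Y0 s l l')) := by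
  have h1 : conV (fun j => 1 + (k j - 1) * k0 j) Y0 s l l' = ∑ x : Ct n Y0, ∑ y : Ct n Y0, s y.1 x.1 *
      (if y.1 + l = x.1 + l' then ((ccV (fun j => 1 + (k j - 1) * k0 j) y.1 l * ccV (fun j => 1 + (k j - 1) * k0 j) x.1 l' : ℝ) :
        ℂ) else 0) := by
    unfold conV
    rw [Finset.sum_comm]
    apply Finset.sum_congr rfl
    intro x _
    apply Finset.sum_congr rfl
    intro y _
    split_ifs
    · ring
    · ring
  rw [h1]
  have h2 : ∀ᶠ Y in atTop, conV k Y (ampV k0 s) l l' = ∑ x : Ct n Y0, ∑ y : Ct n Y0, s y.1 x.1 *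
      (if y.1 + l = x.1 + l' then ∑ i ∈ Fs Y x.1 y.1,
      ((ccV k (y.1 + i) l * ccV k (x.1 + i) l' * (ccV k0 y.1 i * ccV k0 x.1 i) : ℝ) : ℂ) else 0) := by
    filter_upwards [eventually_ge_atTop Y0] with Y hY
    rw [conV_ampV]
    rw [sum_supp hY (fun x y => s y x * (if y + l = x + l' then ∑ i ∈ Fs Y x y,
      ((ccV k (y + i) l * ccV k (x + i) l' * (ccV k0 y i * ccV k0 x i) : ℝ) : ℂ) else 0))]
    intro x y hxy
    change s y x * _ = 0
    rw [hs y x (fun h => hxy ⟨h.2, h.1⟩), zero_mul]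
  refine Tendsto.congr' (EventuallyEq.symm h2) ?_
  apply tendsto_finsetSum
  intro x _
  apply tendsto_finsetSum
  intro y _
  apply Tendsto.const_mul
  by_cases c : y.1 + l = x.1 + l'
  · simp only [if_pos c]
    have h3 := (hasSum_ccV hk hk0 c).comp (tendsto_Fs x.1 y.1)
    have h4 := (Complex.continuous_ofReal.tendsto _).comp h3
    refine h4.congr fun Y => ?_
    simp only [Function.comp]
    rw [Complex.ofReal_sum]
  · simp only [if_neg c]
    exact tendsto_const_nhds

/-! ### the two families -/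

section families

variable {M : ℕ} {ρ : Matrix (Fin n → Fin (M + 1)) (Fin n → Fin (M + 1)) ℂ}

theorem ampV_CkV {t k₀ : Fin n → ℝ} (ht : ∀ j, 1 ≤ t j) (hk : ∀ j, 1 ≤ k₀ j) :
    ampV t (CkV ρ k₀) = CkV ρ (fun j => t j * k₀ j) :=
  ampV_ampV ht hk _

theorem tendsto_conV_CkV {t k₀ : Fin n → ℝ} (ht : ∀ j, 1 ≤ t j) (hk : ∀ j, 1 ≤ k₀ j)
    (l l' : Conf n) :
    Tendsto (fun Y => conV t Y (CkV ρ k₀) l l') atTop
      (𝓝 (DkV ρ (fun j => 1 + (t j - 1) * k₀ j) l l')) :=
  tendsto_conV_ampV ht hk supp_ext l l'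

/-- a common extra gain -/
theorem ampE_CkV {t : ℝ} {k₀ : Fin n → ℝ} (ht : 1 ≤ t) (hk : ∀ j, 1 ≤ k₀ j) :
    ampE t (CkV ρ k₀) = CkV ρ (fun j => t * k₀ j) := by
  rw [← ampV_const]
  exact ampV_CkV (fun _ => ht) hk

theorem tendsto_conE_CkV {t : ℝ} {k₀ : Fin n → ℝ} (ht : 1 ≤ t) (hk : ∀ j, 1 ≤ k₀ j)
    (l l' : Conf n) :
    Tendsto (fun Y => conE t Y (CkV ρ k₀) l l') atTop
      (𝓝 (DkV ρ (fun j => 1 + (t - 1) * k₀ j) l l')) :=
  tendsto_conV_CkV (t := fun _ => t) (fun _ => ht) hk l l'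

end families

end

end Vale.Agent.P369W

end
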